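import Mathlib
import Crest.Prelude.Def_LinCircuit

/-! Straight-line linear computations on abstract vectors, and the cost of a matrix. -/

namespace Crest.Agent.R324

open Set

section Comp

variable {V : Type*} [AddCommGroup V] [Module ℂ V]

/-- One gate: a sum of two available values or a multiple of one (`0` is always available). -/
def Gate (S : Set V) (w : V) : Prop :=
  (∃ u ∈ insert (0 : V) S, ∃ v ∈ insert (0 : V) S, w = u + v) ∨
    ∃ c : ℂ, ∃ u ∈ insert (0 : V) S, w = c • u

/-- `Comp S n T`: from the available values `S`, at most `n` gates make all of `T` available. -/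
inductive Comp : Set V → ℕ → Set V → Prop
  | done {S T : Set V} {n : ℕ} (h : T ⊆ insert 0 S) : Comp S n T
  | step {S T : Set V} {n : ℕ} (w : V) (hw : Gate S w) (h : Comp (insert w S) n T) :
      Comp S (n + 1) T

lemma Gate.mono {S S' : Set V} {w : V} (h : Gate S w) (hS : S ⊆ insert 0 S') : Gate S' w := by
  have h0 : insert (0 : V) S ⊆ insert 0 S' := insert_subset (mem_insert _ _) hS
  rcases h with ⟨u, hu, v, hv, rfl⟩ | ⟨c, u, hu, rfl⟩
  · exact Or.inl ⟨u, h0 hu, v, h0 hv, rfl⟩
  · exact Or.inr ⟨c, u, h0 hu, rfl⟩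

lemma Comp.mono_left {S T : Set V} {n : ℕ} (h : Comp S n T) :
    ∀ {S' : Set V}, S ⊆ insert 0 S' → Comp S' n T := by
  induction h with
  | done h => intro S' hS; exact Comp.done (h.trans (insert_subset (mem_insert _ _) hS))
  | step w hw _ ih =>
    intro S' hS
    refine Comp.step w (hw.mono hS) (ih ?_)
    intro x hx
    rcases hx with rfl | hx
    · exact Or.inr (Or.inl rfl)
    · rcases hS hx with h | h
      · exact Or.inl h
      · exact Or.inr (Or.inr h)

lemma Comp.mono_left' {S S' T : Set V} {n : ℕ} (h : Comp S n T) (hS : S ⊆ S') : Comp S' n T :=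
  h.mono_left (hS.trans (subset_insert _ _))

lemma Comp.mono_right {S T : Set V} {n : ℕ} (h : Comp S n T) :
    ∀ {T' : Set V}, T' ⊆ insert 0 T → Comp S n T' := by
  induction h with
  | done h => intro T' hT; exact Comp.done (hT.trans (insert_subset (mem_insert _ _) h))
  | step w hw _ ih => intro T' hT; exact Comp.step w hw (ih hT)

lemma Comp.mono_right' {S T T' : Set V} {n : ℕ} (h : Comp S n T) (hT : T' ⊆ T) : Comp S n T' :=
  h.mono_right (hT.trans (subset_insert _ _))

lemma Comp.mono_cost {S T : Set V} {n : ℕ} (h : Comp S n T) :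
    ∀ {m : ℕ}, n ≤ m → Comp S m T := by
  induction h with
  | done h => intro m _; exact Comp.done h
  | step w hw _ ih =>
    intro m hm
    obtain ⟨m', rfl⟩ : ∃ m', m = m' + 1 := ⟨m - 1, by omega⟩
    exact Comp.step w hw (ih (by omega))

lemma Comp.trans {S T U : Set V} {n m : ℕ} (h : Comp S n T) (h' : Comp T m U) :
    Comp S (n + m) U := by
  induction h with
  | done h => exact (h'.mono_left h).mono_cost (by omega)
  | @step S T n w hw _ ih =>
    have : n + 1 + m = (n + m) + 1 := by omega
    rw [this]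
    exact Comp.step w hw (ih h')

lemma Comp.keep {S T : Set V} {n : ℕ} (h : Comp S n T) : Comp S n (S ∪ T) := by
  induction h with
  | done h => exact Comp.done (union_subset (subset_insert _ _) h)
  | step w hw _ ih =>
    exact Comp.step w hw (ih.mono_right' (union_subset_union_left _ (subset_insert _ _)))

lemma Comp.union {S T U : Set V} {n m : ℕ} (h : Comp S n T) (h' : Comp S m U) :
    Comp S (n + m) (T ∪ U) := by
  refine (h.keep.trans ((h'.mono_left' (subset_union_left (t := T))).keep)).mono_right' ?_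
  intro x hx
  rcases hx with hx | hx
  · exact Or.inl (Or.inr hx)
  · exact Or.inr hx

lemma Comp.biUnion {S : Set V} {κ : Type*} (s : Finset κ) (T : κ → Set V) (n : κ → ℕ)
    (h : ∀ i ∈ s, Comp S (n i) (T i)) : Comp S (∑ i ∈ s, n i) (⋃ i ∈ s, T i) := by
  classical
  induction s using Finset.induction_on with
  | empty => exact Comp.done (by simp)
  | insert a s ha ih =>
    rw [Finset.sum_insert ha]
    have := (h a (Finset.mem_insert_self _ _)).union
      (ih fun i hi => h i (Finset.mem_insert_of_mem hi))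
    simpa using this

lemma Comp.iUnion {S : Set V} {κ : Type*} [Fintype κ] (T : κ → Set V) (n : κ → ℕ)
    (h : ∀ i, Comp S (n i) (T i)) : Comp S (∑ i, n i) (⋃ i, T i) := by
  simpa using Comp.biUnion Finset.univ T n fun i _ => h i

lemma Comp.range {S : Set V} {κ : Type*} [Fintype κ] (f : κ → V) (n : ℕ)
    (h : ∀ i, Comp S n {f i}) : Comp S (Fintype.card κ * n) (range f) := by
  have := Comp.iUnion (fun i => ({f i} : Set V)) (fun _ => n) h
  simpa [iUnion_singleton_eq_range] using this

lemma Comp.map {V' : Type*} [AddCommGroup V'] [Module ℂ V'] (φ : V →ₗ[ℂ] V') {S T : Set V}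
    {n : ℕ} (h : Comp S n T) : Comp (φ '' S) n (φ '' T) := by
  have h0 : ∀ (S : Set V) u, u ∈ insert (0 : V) S → φ u ∈ insert (0 : V') (φ '' S) := by
    intro S u hu
    rcases hu with rfl | hu
    · simp
    · exact Or.inr ⟨u, hu, rfl⟩
  induction h with
  | done h =>
    refine Comp.done ?_
    rintro _ ⟨x, hx, rfl⟩
    exact h0 _ _ (h hx)
  | step w hw _ ih =>
    refine Comp.step (φ w) ?_ (by rwa [image_insert_eq] at ih)
    rcases hw with ⟨u, hu, v, hv, rfl⟩ | ⟨c, u, hu, rfl⟩
    · exact Or.inl ⟨φ u, h0 _ _ hu, φ v, h0 _ _ hv, by simp⟩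
    · exact Or.inr ⟨c, φ u, h0 _ _ hu, by simp⟩

lemma Comp.smul {S : Set V} (c : ℂ) {u : V} (hu : u ∈ insert (0 : V) S) : Comp S 1 {c • u} :=
  Comp.step (c • u) (Or.inr ⟨c, u, hu, rfl⟩) (Comp.done (by simp))

lemma Comp.add {S : Set V} {u v : V} (hu : u ∈ insert (0 : V) S) (hv : v ∈ insert (0 : V) S) :
    Comp S 1 {u + v} :=
  Comp.step (u + v) (Or.inl ⟨u, hu, v, hv, rfl⟩) (Comp.done (by simp))

lemma Comp.sum {S : Set V} {κ : Type*} (s : Finset κ) (c : κ → ℂ) (u : κ → V)
    (hu : ∀ i ∈ s, u i ∈ insert (0 : V) S) : Comp S (2 * s.card) {∑ i ∈ s, c i • u i} := by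
  classical
  induction s using Finset.induction_on with
  | empty => exact Comp.done (by simp)
  | insert a s ha ih =>
    rw [Finset.sum_insert ha, Finset.card_insert_of_notMem ha]
    have h1 := (Comp.smul (c a) (hu a (Finset.mem_insert_self _ _))).union
      (ih fun i hi => hu i (Finset.mem_insert_of_mem hi))
    refine (h1.trans (Comp.add (u := c a • u a) (v := ∑ i ∈ s, c i • u i) ?_ ?_)).mono_cost
      (by omega)
    · simp
    · simp

end Comp

section Cost

variable {α β γ : Type*}

/-- A matrix applied to an array of vectors. -/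
def app {V : Type*} [AddCommGroup V] [Module ℂ V] [Fintype α] (A : Matrix β α ℂ) (x : α → V) :
    β → V := fun b => ∑ a, A b a • x a

lemma app_mul {V : Type*} [AddCommGroup V] [Module ℂ V] [Fintype α] [Fintype β]
    (A : Matrix γ β ℂ) (B : Matrix β α ℂ) (x : α → V) : app (A * B) x = app A (app B x) := by
  funext c
  simp only [app, Matrix.mul_apply, Finset.sum_smul, Finset.smul_sum, smul_smul]
  exact Finset.sum_comm

lemma app_one {V : Type*} [AddCommGroup V] [Module ℂ V] [Fintype α] [DecidableEq α]
    (x : α → V) : app (1 : Matrix α α ℂ) x = x := by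
  funext a
  simp [app, Matrix.one_apply]

lemma app_single [Fintype α] [DecidableEq α] (A : Matrix β α ℂ) :
    app A (fun a => (Pi.single a 1 : α → ℂ)) = fun b => A b := by
  funext b a
  simp [app, Finset.sum_apply, Pi.single_apply]

/-- The least number of gates computing the matrix `A`. -/
noncomputable def cost [Fintype α] [DecidableEq α] (A : Matrix β α ℂ) : ℕ :=
  sInf {s | Comp (range fun a => (Pi.single a 1 : α → ℂ)) s (range fun b => A b)}

lemma comp_trivial {V : Type*} [AddCommGroup V] [Module ℂ V] [Fintype α] [Fintype β]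
    (A : Matrix β α ℂ) (x : α → V) :
    Comp (range x) (Fintype.card β * (2 * Fintype.card α)) (range (app A x)) :=
  Comp.range _ _ fun b => Comp.sum Finset.univ (A b) x fun a _ => Or.inr ⟨a, rfl⟩

lemma cost_spec [Fintype α] [DecidableEq α] [Fintype β] (A : Matrix β α ℂ) :
    Comp (range fun a => (Pi.single a 1 : α → ℂ)) (cost A) (range fun b => A b) := by
  have : ({s | Comp (range fun a => (Pi.single a 1 : α → ℂ)) s (range fun b => A b)} :
      Set ℕ).Nonempty := ⟨_, by
    have := comp_trivial A (fun a => (Pi.single a 1 : α → ℂ))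
    rwa [app_single] at this⟩
  exact Nat.sInf_mem this

lemma cost_comp {V : Type*} [AddCommGroup V] [Module ℂ V] [Fintype α] [DecidableEq α]
    [Fintype β] (A : Matrix β α ℂ) (x : α → V) :
    Comp (range x) (cost A) (range (app A x)) := by
  have h := (cost_spec A).map (Fintype.linearCombination ℂ x)
  rw [← range_comp, ← range_comp] at h
  convert h using 2
  · funext a
    simp [Fintype.linearCombination_apply, Pi.single_apply]
  · funext b
    simp [Fintype.linearCombination_apply, app]

lemma cost_le [Fintype α] [DecidableEq α] {A : Matrix β α ℂ} {s : ℕ}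
    (h : Comp (range fun a => (Pi.single a 1 : α → ℂ)) s
      (range (app A fun a => (Pi.single a 1 : α → ℂ)))) : cost A ≤ s := by
  rw [app_single] at h
  exact Nat.sInf_le h

lemma cost_mul [Fintype α] [DecidableEq α] [Fintype β] [DecidableEq β] [Fintype γ]
    (A : Matrix γ β ℂ) (B : Matrix β α ℂ) : cost (A * B) ≤ cost B + cost A := by
  apply cost_le
  rw [app_mul]
  exact (cost_comp B _).trans (cost_comp A _)

lemma cost_submatrix {α' β' : Type*} [Fintype α] [DecidableEq α] [Fintype β] [Fintype α']
    [DecidableEq α'] (A : Matrix β α ℂ) (f : β' → β) (g : α' → α) (hg : Function.Injective g) :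
    cost (A.submatrix f g) ≤ cost A := by
  classical
  apply cost_le
  set e : α' → α' → ℂ := fun a => Pi.single a 1
  let x : α → (α' → ℂ) := fun a => if h : ∃ a', g a' = a then e h.choose else 0
  have hx : ∀ a', x (g a') = e a' := by
    intro a'
    have h : ∃ a'', g a'' = g a' := ⟨a', rfl⟩
    simp only [x, dif_pos h]
    rw [hg h.choose_spec]
  refine ((cost_comp A x).mono_left ?_).mono_right' ?_
  · rintro _ ⟨a, rfl⟩
    by_cases h : ∃ a', g a' = a
    · obtain ⟨a', rfl⟩ := h
      exact Or.inr ⟨a', (hx a').symm⟩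
    · left
      simp only [x, dif_neg h]
  · rintro _ ⟨b, rfl⟩
    refine ⟨f b, ?_⟩
    simp only [app, Matrix.submatrix_apply]
    symm
    refine Finset.sum_of_injOn g (hg.injOn) (fun _ _ => Finset.mem_coe.2 (Finset.mem_univ _))
      ?_ ?_
    · intro a _ ha
      have : ¬ ∃ a', g a' = a := by
        rintro ⟨a', rfl⟩
        exact ha ⟨a', by simp, rfl⟩
      simp only [x, dif_neg this, smul_zero]
    · intro a' _
      rw [hx]

/-- A matrix with at most one non-zero entry in each row costs at most one gate per row. -/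
lemma cost_sparse [Fintype α] [DecidableEq α] [Fintype β] (A : Matrix β α ℂ) (σ : β → α)
    (d : β → ℂ) (h : ∀ i j, A i j = if j = σ i then d i else 0) :
    cost A ≤ Fintype.card β := by
  apply cost_le
  have := Comp.range (S := range fun a => (Pi.single a 1 : α → ℂ))
    (app A fun a => (Pi.single a 1 : α → ℂ)) 1 (fun b => by
      have : app A (fun a => (Pi.single a 1 : α → ℂ)) b = d b • (Pi.single (σ b) 1 : α → ℂ) := by
        simp [app, h]
      rw [this]
      exact Comp.smul _ (Or.inr ⟨σ b, rfl⟩))
  simpa using this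

/-- A selection matrix is free. -/
lemma cost_select [Fintype α] [DecidableEq α] (A : Matrix β α ℂ) (σ : β → α)
    (h : ∀ i j, A i j = if j = σ i then 1 else 0) : cost A = 0 := by
  apply Nat.eq_zero_of_le_zero
  apply cost_le
  refine Comp.done ?_
  rintro _ ⟨b, rfl⟩
  right
  exact ⟨σ b, by simp [app, h]⟩

lemma cost_diagonal [Fintype α] [DecidableEq α] (d : α → ℂ) :
    cost (Matrix.diagonal d) ≤ Fintype.card α :=
  cost_sparse _ id d fun i j => by
    simp only [Matrix.diagonal_apply, id, eq_comm]

end Cost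

section Circuit

open Crest.FourierCircuit

lemma comp_to_gates {n : ℕ} {S T : Set (Fin n → ℂ)} {s : ℕ} (h : Comp S s T) :
    ∀ (gates : List LGate) (L : List (Fin n → ℂ)),
      (∀ x : Fin n → ℂ, gates.foldl (fun avail g => avail ++ [g.value avail])
        (List.ofFn x ++ [0]) = L.map (fun v => v ⬝ᵥ x)) →
      insert 0 S ⊆ {v | v ∈ L} →
      ∃ (gates' : List LGate) (L' : List (Fin n → ℂ)), gates'.length ≤ gates.length + s ∧
        (∀ x : Fin n → ℂ, gates'.foldl (fun avail g => avail ++ [g.value avail])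
          (List.ofFn x ++ [0]) = L'.map (fun v => v ⬝ᵥ x)) ∧ T ⊆ {v | v ∈ L'} := by
  induction h with
  | done h =>
    intro gates L hL hS
    exact ⟨gates, L, by omega, hL, h.trans hS⟩
  | @step S T m w hw _ ih =>
    intro gates L hL hS
    have hget : ∀ u ∈ L, ∃ j : ℕ, ∀ x : Fin n → ℂ,
        (L.map (fun v => v ⬝ᵥ x)).getD j 0 = u ⬝ᵥ x := by
      intro u hu
      obtain ⟨j, hj, rfl⟩ := List.getElem_of_mem hu
      refine ⟨j, fun x => ?_⟩
      rw [List.getD_eq_getElem _ _ (by simpa using hj)]
      simp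
    obtain ⟨g, hg⟩ : ∃ g : LGate, ∀ x : Fin n → ℂ,
        g.value (L.map (fun v => v ⬝ᵥ x)) = w ⬝ᵥ x := by
      rcases hw with ⟨u, hu, v, hv, rfl⟩ | ⟨c, u, hu, rfl⟩
      · obtain ⟨j, hj⟩ := hget u (hS hu)
        obtain ⟨k, hk⟩ := hget v (hS hv)
        exact ⟨LGate.add j k, fun x => by simp only [LGate.value, hj, hk, add_dotProduct]⟩
      · obtain ⟨j, hj⟩ := hget u (hS hu)
        exact ⟨LGate.smul c j, fun x => by
          simp only [LGate.value, hj, smul_dotProduct, smul_eq_mul]⟩
    obtain ⟨gates', L', h1, h2, h3⟩ := ih (gates ++ [g]) (L ++ [w]) (fun x => by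
      rw [List.foldl_append, hL x]
      simp [hg x]) (by
      intro v hv
      simp only [mem_ofPred_eq, List.mem_append, List.mem_singleton]
      rcases hv with rfl | rfl | hv
      · exact Or.inl (hS (Or.inl rfl))
      · exact Or.inr rfl
      · exact Or.inl (hS (Or.inr hv)))
    refine ⟨gates', L', ?_, h2, h3⟩
    simp at h1
    omega

theorem exists_circuit {n : ℕ} (A : Matrix (Fin n) (Fin n) ℂ) :
    ∃ P : LinCircuit n, P.Computes A ∧ P.size ≤ cost A := by
  obtain ⟨gates, L, h1, h2, h3⟩ := comp_to_gates (cost_spec A) []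
    (List.ofFn (fun a => (Pi.single a 1 : Fin n → ℂ)) ++ [0]) (fun x => by
      simp [List.map_ofFn, Function.comp_def]) (by
      intro v hv
      simp only [mem_ofPred_eq, List.mem_append, List.mem_singleton, List.mem_ofFn']
      rcases hv with rfl | hv
      · exact Or.inr rfl
      · exact Or.inl hv)
  have hget : ∀ k : Fin n, ∃ j : ℕ, ∀ x : Fin n → ℂ,
      (L.map (fun v => v ⬝ᵥ x)).getD j 0 = A k ⬝ᵥ x := by
    intro k
    obtain ⟨j, hj, hk⟩ := List.getElem_of_mem (h3 ⟨k, rfl⟩)
    refine ⟨j, fun x => ?_⟩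
    rw [List.getD_eq_getElem _ _ (by simpa using hj)]
    simp [hk]
  choose out hout using hget
  refine ⟨⟨gates, out⟩, fun x k => ?_, by simpa [LinCircuit.size] using h1⟩
  simp only [LinCircuit.values, h2 x, hout]
  rfl

end Circuit

end Crest.Agent.R324
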