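import Crest.Agent.R324.Tens

/-! Fourier multipliers on `(ZMod 2)^K` and the frames attached to symmetric matrices. -/

namespace Crest.Agent.R324

open Set Complex

lemma zmod2_cases (a : ZMod 2) : a = 0 ∨ a = 1 := by
  revert a; decide

/-- The sign character of `ZMod 2`. -/
noncomputable def sg (a : ZMod 2) : ℂ := if a = 0 then 1 else -1

@[simp] lemma sg_zero : sg 0 = 1 := by simp [sg]
@[simp] lemma sg_one : sg 1 = -1 := by simp [sg]

lemma sg_add (a b : ZMod 2) : sg (a + b) = sg a * sg b := by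
  have h11 : (1 : ZMod 2) + 1 = 0 := by decide
  rcases zmod2_cases a with rfl | rfl <;> rcases zmod2_cases b with rfl | rfl <;> simp [h11]

lemma sg_sum {κ : Type*} (s : Finset κ) (f : κ → ZMod 2) :
    sg (∑ i ∈ s, f i) = ∏ i ∈ s, sg (f i) := by
  classical
  induction s using Finset.induction_on with
  | empty => simp
  | insert a s ha ih => rw [Finset.sum_insert ha, Finset.prod_insert ha, sg_add, ih]

lemma sum_zmod2 {M : Type*} [AddCommMonoid M] (f : ZMod 2 → M) : ∑ a, f a = f 0 + f 1 :=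
  Fin.sum_univ_two f

section Mult

variable {K : Type*} [Fintype K] [DecidableEq K]

lemma sum_sg_dot (z : K → ZMod 2) :
    ∑ η : K → ZMod 2, sg (η ⬝ᵥ z) = if z = 0 then (2 : ℂ) ^ Fintype.card K else 0 := by
  have : ∀ η : K → ZMod 2, sg (η ⬝ᵥ z) = ∏ i, sg (η i * z i) := fun η => sg_sum _ _
  simp only [this]
  have h2 := Finset.prod_univ_sum (fun _ : K => (Finset.univ : Finset (ZMod 2)))
    (fun i a => sg (a * z i))
  rw [Fintype.piFinset_univ] at h2
  rw [← h2]
  split_ifs with hz
  · subst hz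
    simp [sum_zmod2]
  · obtain ⟨i, hi⟩ := Function.ne_iff.1 hz
    refine Finset.prod_eq_zero (Finset.mem_univ i) ?_
    rcases zmod2_cases (z i) with h | h
    · exact absurd h hi
    · simp [sum_zmod2, h]

/-- The convolution operator with Fourier multiplier `φ`. -/
noncomputable def mult (φ : (K → ZMod 2) → ℂ) : Matrix (K → ZMod 2) (K → ZMod 2) ℂ :=
  Matrix.of fun x y => ((2 : ℂ) ^ Fintype.card K)⁻¹ * ∑ η, φ η * sg (η ⬝ᵥ (x + y))

lemma add_eq_zero_iff_eq' (x y : K → ZMod 2) : x + y = 0 ↔ y = x := by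
  constructor
  · intro h
    funext i
    have := congrFun h i
    simp only [Pi.add_apply, Pi.zero_apply] at this
    revert this
    generalize x i = a
    generalize y i = b
    revert a b; decide
  · rintro rfl
    funext i
    simp only [Pi.add_apply, Pi.zero_apply]
    generalize y i = b
    revert b; decide

lemma mult_char (w x y : K → ZMod 2) :
    mult (fun η => sg (η ⬝ᵥ w)) x y = if y = x + w then 1 else 0 := by
  simp only [mult, Matrix.of_apply, ← sg_add, ← dotProduct_add]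
  rw [sum_sg_dot]
  have : w + (x + y) = 0 ↔ y = x + w := by
    rw [← add_assoc, add_eq_zero_iff_eq', add_comm]
  simp only [this]
  split_ifs <;> simp

lemma mult_one : mult (fun _ : K → ZMod 2 => (1 : ℂ)) = 1 := by
  ext x y
  have := mult_char (0 : K → ZMod 2) x y
  simp only [dotProduct_zero, sg_zero, add_zero] at this
  rw [this, Matrix.one_apply]
  simp only [eq_comm]

lemma mult_mul (φ ψ : (K → ZMod 2) → ℂ) :
    mult (fun η => φ η * ψ η) = mult φ * mult ψ := by
  ext x z
  have h2 : ((2 : ℂ) ^ Fintype.card K) ≠ 0 := pow_ne_zero _ two_ne_zero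
  simp only [mult, Matrix.of_apply, Matrix.mul_apply]
  have : ∀ y : K → ZMod 2, (((2 : ℂ) ^ Fintype.card K)⁻¹ * ∑ η, φ η * sg (η ⬝ᵥ (x + y))) *
      (((2 : ℂ) ^ Fintype.card K)⁻¹ * ∑ η, ψ η * sg (η ⬝ᵥ (y + z))) =
      ∑ η, ∑ η', (((2 : ℂ) ^ Fintype.card K)⁻¹ * ((2 : ℂ) ^ Fintype.card K)⁻¹ *
        (φ η * ψ η' * sg (η ⬝ᵥ x) * sg (η' ⬝ᵥ z))) * sg (y ⬝ᵥ (η + η')) := by
    intro y
    rw [mul_mul_mul_comm, Finset.sum_mul_sum, Finset.mul_sum]
    refine Finset.sum_congr rfl fun η _ => ?_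
    rw [Finset.mul_sum]
    refine Finset.sum_congr rfl fun η' _ => ?_
    simp only [dotProduct_add, sg_add]
    rw [dotProduct_comm y η, dotProduct_comm y η']
    ring
  simp only [this]
  rw [Finset.sum_comm, Finset.mul_sum]
  refine Finset.sum_congr rfl fun η _ => ?_
  rw [Finset.sum_comm]
  simp only [← Finset.mul_sum, sum_sg_dot, add_eq_zero_iff_eq', mul_ite, mul_zero,
    Finset.sum_ite_eq', Finset.mem_univ, if_true]
  simp only [dotProduct_add, sg_add]
  field_simp

lemma mult_sum {J : Type*} [Fintype J] (c : J → ℂ) (φ : J → (K → ZMod 2) → ℂ)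
    (x y : K → ZMod 2) :
    mult (fun η => ∑ j, c j * φ j η) x y = ∑ j, c j * mult (φ j) x y := by
  simp only [mult, Matrix.of_apply, Finset.sum_mul, Finset.mul_sum]
  rw [Finset.sum_comm]
  refine Finset.sum_congr rfl fun j _ => Finset.sum_congr rfl fun η _ => by ring

end Mult

/-- `1` or `i`. -/
noncomputable def c1 (b : ZMod 2) : ℂ := if b = 0 then 1 else I

lemma c1_eq (b : ZMod 2) : c1 b = ∑ ε, c0 ε * sg (ε * b) := by
  rcases zmod2_cases b with rfl | rfl <;> simp [sum_zmod2, c0, c1] <;> ring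

lemma prod_c1 {κ : Type*} [Fintype κ] [DecidableEq κ] (b : κ → ZMod 2) :
    ∏ s, c1 (b s) = ∑ ε : κ → ZMod 2, (∏ s, c0 (ε s)) * sg (ε ⬝ᵥ b) := by
  simp only [c1_eq]
  rw [Finset.prod_univ_sum, Fintype.piFinset_univ]
  refine Finset.sum_congr rfl fun ε _ => ?_
  rw [Finset.prod_mul_distrib, dotProduct, sg_sum]

lemma mult_full {K : Type*} [Fintype K] [DecidableEq K] :
    mult (fun η : K → ZMod 2 => ∏ s, c1 (η s)) = CT K := by
  ext x y
  simp only [prod_c1]
  have := mult_sum (fun ε : K → ZMod 2 => ∏ s, c0 (ε s)) (fun ε η => sg (η ⬝ᵥ ε)) x y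
  simp only [dotProduct_comm _ (_ : K → ZMod 2)] at this ⊢
  rw [this]
  have h : ∀ ε : K → ZMod 2, mult (fun η => sg (ε ⬝ᵥ η)) x y = if ε = x + y then 1 else 0 := by
    intro ε
    have := mult_char ε x y
    simp only [dotProduct_comm _ ε] at this
    rw [this]
    congr 1
    rw [← add_eq_zero_iff_eq', ← add_eq_zero_iff_eq' (x + y), add_right_comm]
  simp [h, CT_apply]

section Frames

variable {κ ι : Type*} [Fintype κ] [DecidableEq κ] [Fintype ι] [DecidableEq ι]

/-- Multiplier of the rank-one operation along `u`. -/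
noncomputable def phiU (u : ι → ZMod 2) (η : κ × ι → ZMod 2) : ℂ :=
  ∏ s : κ, c1 (∑ a, η (s, a) * u a)

lemma app_mult_phiU {V : Type*} [AddCommGroup V] [Module ℂ V] (u : ι → ZMod 2)
    (X : (κ × ι → ZMod 2) → V) (x : κ × ι → ZMod 2) :
    app (mult (phiU u)) X x =
      ∑ ε : κ → ZMod 2, (∏ s, c0 (ε s)) • X (x + fun p => ε p.1 * u p.2) := by
  have h1 : phiU (κ := κ) u = fun η => ∑ ε : κ → ZMod 2, (∏ s, c0 (ε s)) *
      sg (η ⬝ᵥ fun p => ε p.1 * u p.2) := by
    funext η
    rw [phiU, prod_c1]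
    refine Finset.sum_congr rfl fun ε _ => ?_
    congr 2
    simp only [dotProduct, Fintype.sum_prod_type, Finset.mul_sum]
    exact Finset.sum_congr rfl fun s _ => Finset.sum_congr rfl fun a _ => by ring
  simp only [app, h1, mult_sum, mult_char, Finset.sum_smul]
  rw [Finset.sum_comm]
  simp

/-- Cost of one rank-one operation. -/
noncomputable def gam (κ ι : Type*) [Fintype κ] [Fintype ι] : ℕ :=
  2 ^ (Fintype.card κ * (Fintype.card ι - 1)) * gc (Fintype.card κ)

lemma cost_mult_phiU (u : ι → ZMod 2) : cost (mult (phiU (κ := κ) u)) ≤ gam κ ι := by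
  by_cases hu : u = 0
  · have : phiU (κ := κ) u = fun _ => 1 := by
      funext η
      simp [phiU, hu, c1]
    rw [this, mult_one, cost_select _ id fun i j => by simp [Matrix.one_apply, eq_comm]]
    exact Nat.zero_le _
  obtain ⟨a0, ha0⟩ := Function.ne_iff.1 hu
  have hu1 : u a0 = 1 := (zmod2_cases _).resolve_left ha0
  apply cost_le
  set X : (κ × ι → ZMod 2) → ((κ × ι → ZMod 2) → ℂ) := fun a => Pi.single a 1
  let ext : (κ × {a // a ≠ a0} → ZMod 2) → (κ × ι → ZMod 2) := fun z p =>
    if h : p.2 = a0 then 0 else z (p.1, ⟨p.2, h⟩)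
  have h := Comp.iUnion (S := range X) (fun z : κ × {a // a ≠ a0} → ZMod 2 =>
    range (app (CT κ) fun ε => X (ext z + fun p => ε p.1 * u p.2))) (fun _ => cost (CT κ))
    fun z => (cost_comp _ _).mono_left' (by rintro _ ⟨a, rfl⟩; exact ⟨_, rfl⟩)
  have hcard : Fintype.card (κ × {a // a ≠ a0} → ZMod 2) =
      2 ^ (Fintype.card κ * (Fintype.card ι - 1)) := by
    simp [Fintype.card_subtype_compl]
  simp only [Finset.sum_const, Finset.card_univ, smul_eq_mul, hcard, cost_CT] at h
  refine h.mono_right' ?_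
  rintro _ ⟨x, rfl⟩
  refine mem_iUnion.2 ⟨fun p => x (p.1, p.2) + x (p.1, a0) * u p.2, fun s => x (s, a0), ?_⟩
  rw [app_mult_phiU]
  simp only [app, CT_apply]
  refine (Equiv.sum_comp (Equiv.addLeft fun s => x (s, a0)) _).symm.trans ?_
  refine Finset.sum_congr rfl fun ε _ => ?_
  have h2 : ∀ a : ZMod 2, a + a = 0 := by decide
  congr 1
  · refine Finset.prod_congr rfl fun s _ => ?_
    simp [← add_assoc, h2]
  · congr 1
    funext ⟨s, a⟩
    by_cases ha : a = a0
    · subst ha
      simp [ext, hu1]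
    · simp only [ext, ha, dif_neg, not_false_eq_true, Pi.add_apply, Equiv.coe_addLeft]
      linear_combination (h2 (x (s, a0) * u a))

/-- The integer quadratic form of `B` at the `0/1` lift of `z`. -/
def qf (B : Matrix ι ι ℤ) (z : ι → ZMod 2) : ℤ :=
  ∑ a, ∑ b, B a b * ((z a).val : ℤ) * ((z b).val : ℤ)

/-- Multiplier of the frame of an integer matrix. -/
noncomputable def phiB (B : Matrix ι ι ℤ) (η : κ × ι → ZMod 2) : ℂ :=
  ∏ s : κ, I ^ qf B fun a => η (s, a)

omit [DecidableEq κ] [DecidableEq ι] in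
lemma phiB_add (B B' : Matrix ι ι ℤ) :
    phiB (κ := κ) (B + B') = fun η => phiB B η * phiB B' η := by
  funext η
  simp only [phiB, ← Finset.prod_mul_distrib, ← zpow_add₀ I_ne_zero]
  refine Finset.prod_congr rfl fun s _ => ?_
  congr 1
  simp [qf, add_mul, Finset.sum_add_distrib]

omit [DecidableEq κ] [DecidableEq ι] in
lemma phiB_zero : phiB (κ := κ) (0 : Matrix ι ι ℤ) = fun _ => 1 := by
  funext η
  simp [phiB, qf]

lemma I_zpow_sq (n : ℤ) : I ^ (n * n) = c1 (n : ZMod 2) := by
  have h4 : ∀ k : ℤ, I ^ (4 * k) = 1 := fun k => by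
    rw [zpow_mul]
    have : I ^ (4 : ℤ) = 1 := by exact_mod_cast I_pow_four
    rw [this, one_zpow]
  have h2 : (2 : ZMod 2) = 0 := by decide
  rcases Int.even_or_odd' n with ⟨k, rfl | rfl⟩
  · have : 2 * k * (2 * k) = 4 * (k * k) := by ring
    rw [this, h4]
    simp [c1, h2]
  · have : (2 * k + 1) * (2 * k + 1) = 4 * (k * k + k) + 1 := by ring
    rw [this, zpow_add₀ I_ne_zero, h4]
    simp [c1, h2]

lemma I_zpow_two_mul (n : ℤ) : I ^ (2 * n) = sg (n : ZMod 2) := by
  have h2 : (2 : ZMod 2) = 0 := by decide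
  have hI : I ^ (2 : ℤ) = -1 := by exact_mod_cast I_sq
  rw [zpow_mul, hI]
  rcases Int.even_or_odd' n with ⟨k, rfl | rfl⟩
  · rw [zpow_mul]
    simp [h2]
  · rw [zpow_add₀ (by norm_num), zpow_mul]
    simp [h2]

/-- Integer lift of a vector over `ZMod 2`. -/
def liftV (u : ι → ZMod 2) : ι → ℤ := fun a => ((u a).val : ℤ)

omit [DecidableEq κ] [DecidableEq ι] in
lemma phiB_rank_one (u : ι → ZMod 2) :
    phiB (κ := κ) (Matrix.vecMulVec (liftV u) (liftV u)) = phiU u := by
  funext η
  refine Finset.prod_congr rfl fun s _ => ?_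
  have : qf (Matrix.vecMulVec (liftV u) (liftV u)) (fun a => η (s, a)) =
      (∑ a, ((η (s, a)).val : ℤ) * liftV u a) * (∑ a, ((η (s, a)).val : ℤ) * liftV u a) := by
    rw [Finset.sum_mul_sum]
    simp only [qf, Matrix.vecMulVec_apply]
    exact Finset.sum_congr rfl fun a _ => Finset.sum_congr rfl fun b _ => by ring
  rw [this, I_zpow_sq]
  simp [liftV]

lemma sum_symm_zmod2 (f : ι → ι → ZMod 2) (hf : ∀ a b, f a b = f b a) :
    ∑ a, ∑ b, f a b = ∑ a, f a a := by
  have h2 : ∀ a : ZMod 2, a + a = 0 := by decide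
  have key : ∀ s : Finset ι, ∑ a ∈ s, ∑ b ∈ s, f a b = ∑ a ∈ s, f a a := by
    intro s
    induction s using Finset.induction_on with
    | empty => simp
    | insert c s hc ih =>
      simp only [Finset.sum_insert hc, Finset.sum_add_distrib, ih]
      have : ∑ a ∈ s, f a c = ∑ b ∈ s, f c b := Finset.sum_congr rfl fun a _ => hf a c
      rw [this]
      linear_combination h2 (∑ b ∈ s, f c b)
  exact key Finset.univ

omit [DecidableEq κ] in
lemma phiB_even (N : Matrix ι ι ℤ) (hN : N.IsSymm) :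
    phiB (κ := κ) (2 • N) = fun η => sg (η ⬝ᵥ fun p => (N p.2 p.2 : ZMod 2)) := by
  funext η
  have hsq : ∀ a : ZMod 2, a * a = a := by decide
  rw [dotProduct, Fintype.sum_prod_type, sg_sum]
  refine Finset.prod_congr rfl fun s _ => ?_
  have : qf (2 • N) (fun a => η (s, a)) = 2 * qf N (fun a => η (s, a)) := by
    simp only [qf, Finset.mul_sum, Matrix.smul_apply, nsmul_eq_mul]
    exact Finset.sum_congr rfl fun a _ => Finset.sum_congr rfl fun b _ => by push_cast; ring
  rw [this, I_zpow_two_mul]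
  congr 1
  simp only [qf, Int.cast_sum, Int.cast_mul, Int.cast_natCast, ZMod.natCast_zmod_val]
  rw [sum_symm_zmod2 (fun a b => (N a b : ZMod 2) * η (s, a) * η (s, b))]
  · refine Finset.sum_congr rfl fun a _ => ?_
    rw [mul_assoc, hsq, mul_comm]
  · intro a b
    rw [hN.apply a b]
    ring

lemma mult_phiB_one : mult (phiB (κ := κ) (1 : Matrix ι ι ℤ)) = CT (κ × ι) := by
  rw [← mult_full]
  congr 1
  funext η
  rw [Fintype.prod_prod_type]
  refine Finset.prod_congr rfl fun s _ => ?_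
  have : qf (1 : Matrix ι ι ℤ) (fun a => η (s, a)) =
      ∑ a, ((η (s, a)).val : ℤ) * ((η (s, a)).val : ℤ) := by
    simp [qf, Matrix.one_apply]
  rw [this]
  have hz : ∀ (t : Finset ι) (f : ι → ℤ), I ^ (∑ a ∈ t, f a) = ∏ a ∈ t, I ^ f a := by
    intro t f
    induction t using Finset.induction_on with
    | empty => simp
    | insert c t hc ih => rw [Finset.sum_insert hc, Finset.prod_insert hc, zpow_add₀ I_ne_zero, ih]
  rw [hz]
  refine Finset.prod_congr rfl fun a _ => ?_
  rw [I_zpow_sq]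
  simp

omit [Fintype ι] [DecidableEq ι] in
lemma exists_half (N : Matrix ι ι ℤ) (hN : N.IsSymm)
    (h : N.map (Int.cast : ℤ → ZMod 2) = 0) : ∃ N' : Matrix ι ι ℤ, N'.IsSymm ∧ N = 2 • N' := by
  refine ⟨N.map (· / 2), hN.map _, ?_⟩
  ext a b
  have : ((N a b : ℤ) : ZMod 2) = 0 := congrFun (congrFun h a) b
  have h2 : (2 : ℤ) ∣ N a b := by exact_mod_cast (ZMod.intCast_zmod_eq_zero_iff_dvd _ 2).1 this
  simp only [Matrix.smul_apply, Matrix.map_apply, nsmul_eq_mul]
  push_cast
  omega

/-- An even symmetric matrix has a translation as its frame. -/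
lemma mult_phiB_even (N : Matrix ι ι ℤ) (hN : N.IsSymm)
    (h : N.map (Int.cast : ℤ → ZMod 2) = 0) :
    ∃ w : κ × ι → ZMod 2, ∀ x y, mult (phiB (κ := κ) N) x y = if y = x + w then 1 else 0 := by
  obtain ⟨N', hN', rfl⟩ := exists_half N hN h
  exact ⟨_, fun x y => by rw [phiB_even N' hN', mult_char]⟩

end Frames

/-- `Len M r`: `M` is a sum of at most `r` matrices `u uᵀ` over `ZMod 2`. -/
inductive Len {ι : Type*} : Matrix ι ι (ZMod 2) → ℕ → Prop
  | zero (r : ℕ) : Len 0 r
  | step {M : Matrix ι ι (ZMod 2)} {r : ℕ} (u : ι → ZMod 2) (h : Len M r) :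
      Len (M + Matrix.vecMulVec u u) (r + 1)

lemma Len.isSymm {ι : Type*} {M : Matrix ι ι (ZMod 2)} {r : ℕ} (h : Len M r) : M.IsSymm := by
  induction h with
  | zero r => exact Matrix.isSymm_zero
  | step u _ ih =>
    refine ih.add ?_
    ext a b
    simp [Matrix.vecMulVec_apply, mul_comm]

section Frames2

variable {κ ι : Type*} [Fintype κ] [DecidableEq κ] [Fintype ι] [DecidableEq ι]

lemma cost_mult_phiB {M : Matrix ι ι (ZMod 2)} {r : ℕ} (h : Len M r) :
    ∀ N : Matrix ι ι ℤ, N.IsSymm → N.map (Int.cast : ℤ → ZMod 2) = M →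
      cost (mult (phiB (κ := κ) N)) ≤ r * gam κ ι := by
  induction h with
  | zero r =>
    intro N hN h
    obtain ⟨w, hw⟩ := mult_phiB_even (κ := κ) N hN h
    rw [cost_select _ _ hw]
    exact Nat.zero_le _
  | @step M r u _ ih =>
    intro N hN h
    have e : N = (N - Matrix.vecMulVec (liftV u) (liftV u)) +
      Matrix.vecMulVec (liftV u) (liftV u) := by simp
    rw [e, phiB_add, mult_mul, phiB_rank_one]
    refine (cost_mul _ _).trans ?_
    have h1 := ih (N - Matrix.vecMulVec (liftV u) (liftV u)) (hN.sub (by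
      ext a b
      simp [Matrix.vecMulVec_apply, mul_comm])) (by
      ext a b
      have := congrFun (congrFun h a) b
      simp only [Matrix.map_apply, Matrix.add_apply, Matrix.vecMulVec_apply] at this
      simp [Matrix.vecMulVec_apply, liftV, this])
    have h2 := cost_mult_phiU (κ := κ) u
    rw [add_mul, one_mul]
    omega

/-- Integer lift of a matrix over `ZMod 2`. -/
def liftM (B : Matrix ι ι (ZMod 2)) : Matrix ι ι ℤ := B.map fun z => (z.val : ℤ)

omit [Fintype ι] [DecidableEq ι] in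
lemma liftM_cast (B : Matrix ι ι (ZMod 2)) : (liftM B).map (Int.cast : ℤ → ZMod 2) = B := by
  ext a b
  simp [liftM]

variable (κ) in
open Classical in
/-- The frame of a label (zero for a non-symmetric label). -/
noncomputable def frame (B : Matrix ι ι (ZMod 2)) :
    Matrix (κ × ι → ZMod 2) (κ × ι → ZMod 2) ℂ :=
  if B.IsSymm then mult (phiB (liftM B)) else 0

lemma comp_move {V : Type*} [AddCommGroup V] [Module ℂ V] {B B' : Matrix ι ι (ZMod 2)} {r : ℕ}
    (h : Len (B' - B) r) (X : (κ × ι → ZMod 2) → V) :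
    Comp (range (app (frame κ B) X)) (r * gam κ ι) (range (app (frame κ B') X)) := by
  by_cases hB : B.IsSymm
  · have hB' : B'.IsSymm := by
      have := h.isSymm.add hB
      simpa using this
    have e : liftM B' = (liftM B' - liftM B) + liftM B := by simp
    have : frame κ B' = mult (phiB (liftM B' - liftM B)) * frame κ B := by
      simp only [frame, if_pos hB, if_pos hB']
      rw [← mult_mul, ← phiB_add, ← e]
    rw [this, app_mul]
    refine (cost_comp _ _).mono_cost (cost_mult_phiB h _ ((hB'.map _).sub (hB.map _)) ?_)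
    rw [Matrix.map_sub _ Int.cast_sub, liftM_cast, liftM_cast]
  · have hB' : ¬ B'.IsSymm := by
      intro hB'
      have := hB'.sub h.isSymm
      exact hB (by simpa using this)
    refine Comp.done ?_
    rintro _ ⟨x, rfl⟩
    left
    simp [frame, hB', app]

/-- Virtual content of an array at a label. -/
noncomputable def unframe (B : Matrix ι ι (ZMod 2)) :
    Matrix (κ × ι → ZMod 2) (κ × ι → ZMod 2) ℂ := mult (phiB (-liftM B))

lemma frame_unframe {B : Matrix ι ι (ZMod 2)} (hB : B.IsSymm) :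
    frame κ B * unframe B = 1 := by
  simp only [frame, if_pos hB, unframe]
  rw [← mult_mul, ← phiB_add, add_neg_cancel, phiB_zero, mult_one]

lemma range_frame_succ {V : Type*} [AddCommGroup V] [Module ℂ V] {B : Matrix ι ι (ZMod 2)}
    (hB : B.IsSymm) (X : (κ × ι → ZMod 2) → V) :
    range (app (CT (κ × ι)) X) ⊆ range (app (frame κ (B + 1)) (app (unframe B) X)) := by
  have hB1 : (B + 1).IsSymm := hB.add Matrix.isSymm_one
  obtain ⟨w, hw⟩ := mult_phiB_even (κ := κ) (liftM (B + 1) - liftM B - 1)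
    (((hB1.map _).sub (hB.map _)).sub Matrix.isSymm_one) (by
      rw [Matrix.map_sub _ Int.cast_sub, Matrix.map_sub _ Int.cast_sub, liftM_cast, liftM_cast,
        Matrix.map_one _ Int.cast_zero Int.cast_one]
      simp)
  have : frame κ (B + 1) * unframe B =
      mult (phiB (liftM (B + 1) - liftM B - 1)) * CT (κ × ι) := by
    simp only [frame, if_pos hB1, unframe]
    rw [← mult_phiB_one, ← mult_mul, ← phiB_add, ← mult_mul, ← phiB_add]
    congr 2
    abel
  rw [← app_mul, this, app_mul]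
  rintro _ ⟨x, rfl⟩
  refine ⟨x + w, ?_⟩
  have h2 : w + w = 0 := (add_eq_zero_iff_eq' w w).2 rfl
  conv_lhs => rw [app]
  simp [hw, add_assoc, h2]

end Frames2

end Crest.Agent.R324
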