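import Crest.Agent.R324.Net

/-! The transfer gadgets and the three-stage swap network. -/

namespace Crest.Agent.R324

open Set
open scoped Kronecker

/-- The combinatorial data of a gadget: labels `P S` on `H` (of size `g + 2`), a low-rank matrix
`R * G` equal to the identity plus a matrix supported on orthogonal pairs. -/
structure Design (σ H Pr : Type) [Fintype σ] [DecidableEq σ] [Fintype H] [DecidableEq H]
    [Fintype Pr] (g : ℕ) where
  P : σ → Lab H
  src : Pr → σ
  tgt : Pr → σ
  E : Pr → ℂ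
  G : H → σ → ℂ
  R : σ → H → ℂ
  card : Fintype.card H = g + 2
  hP : ∀ S, Len (P S) 1
  hQ : ∀ S, Len (1 - P S) (g + 1)
  hPQ : ∀ p, Len (1 - P (tgt p) - P (src p)) g
  key : ∀ S T, ∑ j, R S j * G j T =
    (if T = S then 1 else 0) + ∑ p, if tgt p = S ∧ src p = T then E p else 0

variable {σ H Pr : Type} [Fintype σ] [DecidableEq σ] [Fintype H] [DecidableEq H] [Fintype Pr]
  {g : ℕ} (D : Design σ H Pr g)
variable {ι : Type} [Fintype ι] [DecidableEq ι] {U : Type} [AddCommGroup U] [Module ℂ U]

include D in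
lemma Design.h1 : Len (1 : Lab H) (g + 2) := D.card ▸ Len.one

lemma Design.vec (z : σ → U) (S : σ) :
    ∑ j, D.R S j • ∑ T, D.G j T • z T =
      z S + ∑ p, (if D.tgt p = S then D.E p else 0) • z (D.src p) := by
  simp only [Finset.smul_sum, smul_smul]
  rw [Finset.sum_comm]
  simp only [← Finset.sum_smul, D.key]
  simp only [add_smul, Finset.sum_add_distrib, Finset.sum_smul]
  congr 1
  · simp
  · rw [Finset.sum_comm]
    refine Finset.sum_congr rfl fun p _ => ?_
    by_cases h : D.tgt p = S <;> simp [h]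

/-- Cost of one gadget. -/
def gcost (σ Pr : Type) [Fintype σ] [Fintype Pr] (g : ℕ) : ℕ :=
  (g + 2) * (g + 2) + 2 * Fintype.card σ * (g + 1) + Fintype.card Pr * (g + 2)

/-- Transfer from the upper wires `x` to the lower wires `y`. -/
lemma Design.gadget1 (β : Lab ι) (φ : Lab H →+ Lab ι) (hφ : ∀ M r, Len M r → Len (φ M) r)
    (S₀ : Set (Lab ι × U)) (x y : σ → U) (a : Pr → U)
    (hx : ∀ T, x T ∈ Has S₀ (β + φ (D.P T))) (hy : ∀ T, y T ∈ Has S₀ β)
    (ha : ∀ p, a p ∈ Has S₀ β) :
    Net S₀ (gcost σ Pr g) ((range fun T => (β + φ 1, x T)) ∪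
      (range fun T => (β + φ (1 - D.P T), y T + x T)) ∪ range fun p => (β + φ 1, a p)) := by
  have L : ∀ {M N : Lab H} {r : ℕ}, Len (M - N) r → Len (β + φ M - (β + φ N)) r := by
    intro M N r h
    exact (hφ _ _ h).of_eq (by rw [map_sub]; abel)
  have L0 : ∀ {M : Lab H} {r : ℕ}, Len M r → Len (β + φ M - β) r := by
    intro M r h
    exact (hφ _ _ h).of_eq (by abel)
  refine Net.mono_cost (r := Fintype.card σ * (g + 1) + (Fintype.card H * (g + 2) +
    (Fintype.card σ * (g + 1) + (Fintype.card Pr * 1 + (Fintype.card Pr * g +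
    (Fintype.card Pr * 1 + 0)))))) ?_ (le_of_eq (by rw [gcost, D.card]; ring))
  -- the sources move up
  refine Net.step (fun T => β + φ (D.P T)) (fun _ => β + φ 1) x (g + 1) hx
    (fun T => L (D.hQ T)) ?_
  -- the low-rank part comes down
  refine Net.step (fun _ : H => β + φ 1) (fun _ => β) (fun j => ∑ T, D.G j T • x T) (g + 2)
    (fun j => Submodule.sum_mem _ fun T _ => Submodule.smul_mem _ _
      (Has.new (fun _ => β + φ 1) x T))
    (fun _ => (hφ _ _ D.h1).neg.of_eq (by abel)) ?_
  -- the targets move up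
  refine Net.step (fun _ : σ => β) (fun T => β + φ (1 - D.P T))
    (fun S => y S + (∑ p, (if D.tgt p = S then D.E p else 0) • a p) +
      ∑ j, D.R S j • ∑ T, D.G j T • x T) (g + 1)
    (fun S => Submodule.add_mem _ (Submodule.add_mem _ (Has.left (Has.left (hy S)))
      (Submodule.sum_mem _ fun p _ => Submodule.smul_mem _ _ (Has.left (Has.left (ha p)))))
      (Submodule.sum_mem _ fun j _ => Submodule.smul_mem _ _
        (Has.new (fun _ : H => β) (fun j => ∑ T, D.G j T • x T) j)))
    (fun T => L0 (D.hQ T)) ?_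
  -- the relays
  refine Net.step (fun _ : Pr => β) (fun p => β + φ (D.P (D.src p))) a 1
    (fun p => Has.left (Has.left (Has.left (ha p)))) (fun p => L0 (D.hP _)) ?_
  refine Net.step (fun p => β + φ (D.P (D.src p))) (fun p => β + φ (1 - D.P (D.tgt p)))
    (fun p => a p + x (D.src p)) g
    (fun p => Submodule.add_mem _ (Has.new (fun p => β + φ (D.P (D.src p))) a p)
      (Has.left (Has.left (Has.left (Has.left (hx _))))))
    (fun p => L (D.hPQ p)) ?_
  refine Net.step (fun p => β + φ (1 - D.P (D.tgt p))) (fun _ => β + φ 1)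
    (fun p => a p + x (D.src p)) 1
    (fun p => Has.new (fun p => β + φ (1 - D.P (D.tgt p))) (fun p => a p + x (D.src p)) p)
    (fun p => L ((D.hP (D.tgt p)).of_eq (by abel))) ?_
  refine Net.form (fun _ : Pr => β + φ 1) a (fun p => ?_) ?_
  · have h1 := Has.new (S := (((((S₀ ∪ range fun T => (β + φ 1, x T)) ∪
      range fun j : H => (β, ∑ T, D.G j T • x T)) ∪ range fun S => (β + φ (1 - D.P S),
        y S + (∑ p, (if D.tgt p = S then D.E p else 0) • a p) +
      ∑ j, D.R S j • ∑ T, D.G j T • x T)) ∪ range fun p => (β + φ (D.P (D.src p)), a p)) ∪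
      range fun p => (β + φ (1 - D.P (D.tgt p)), a p + x (D.src p))))
      (fun _ : Pr => β + φ 1) (fun p => a p + x (D.src p)) p
    have := Submodule.sub_mem _ h1 (Has.left (Has.left (Has.left (Has.left (Has.left
      (Has.new (fun _ => β + φ 1) x (D.src p)))))))
    simpa using this
  refine Net.form (fun T => β + φ (1 - D.P T)) (fun T => y T + x T) (fun S => ?_) ?_
  · have e : y S + x S = (y S + (∑ p, (if D.tgt p = S then D.E p else 0) • a p) +
        ∑ j, D.R S j • ∑ T, D.G j T • x T) -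
        ∑ p, (if D.tgt p = S then D.E p else 0) • (a p + x (D.src p)) := by
      rw [D.vec]
      simp only [smul_add, Finset.sum_add_distrib]
      abel
    rw [e]
    refine Submodule.sub_mem _ (Has.left (Has.left (Has.left (Has.left
      (Has.new (fun T => β + φ (1 - D.P T)) _ S))))) (Submodule.sum_mem _ fun p _ => ?_)
    by_cases h : D.tgt p = S
    · subst h
      exact Submodule.smul_mem _ _ (Has.left (Has.left
        (Has.new (fun p => β + φ (1 - D.P (D.tgt p))) (fun p => a p + x (D.src p)) p)))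
    · simp [h]
  refine Net.done ?_
  rintro _ ((⟨T, rfl⟩ | ⟨T, rfl⟩) | ⟨p, rfl⟩)
  · exact Or.inl (Or.inl (Or.inl (Or.inl (Or.inl (Or.inl (Or.inl (Or.inr ⟨T, rfl⟩)))))))
  · exact Or.inr ⟨T, rfl⟩
  · exact Or.inl (Or.inr ⟨p, rfl⟩)

/-- Transfer from the lower wires `y` to the upper wires `x`. -/
lemma Design.gadget2 (β : Lab ι) (φ : Lab H →+ Lab ι) (hφ : ∀ M r, Len M r → Len (φ M) r)
    (S₀ : Set (Lab ι × U)) (x y : σ → U) (a : Pr → U)
    (hx : ∀ T, x T ∈ Has S₀ (β + φ (D.P T))) (hy : ∀ T, y T ∈ Has S₀ β)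
    (ha : ∀ p, a p ∈ Has S₀ β) :
    Net S₀ (gcost σ Pr g) ((range fun T => (β + φ 1, x T - y T)) ∪
      (range fun T => (β + φ (1 - D.P T), y T)) ∪ range fun p => (β + φ 1, a p)) := by
  have L : ∀ {M N : Lab H} {r : ℕ}, Len (M - N) r → Len (β + φ M - (β + φ N)) r := by
    intro M N r h
    exact (hφ _ _ h).of_eq (by rw [map_sub]; abel)
  have L0 : ∀ {M : Lab H} {r : ℕ}, Len M r → Len (β + φ M - β) r := by
    intro M r h
    exact (hφ _ _ h).of_eq (by abel)
  refine Net.mono_cost (r := Fintype.card H * (g + 2) + (Fintype.card Pr * 1 +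
    (Fintype.card σ * (g + 1) + (Fintype.card σ * (g + 1) + (Fintype.card Pr * g +
    (Fintype.card Pr * 1 + 0)))))) ?_ (le_of_eq (by rw [gcost, D.card]; ring))
  -- the low-rank part goes up
  refine Net.step (fun _ : H => β) (fun _ => β + φ 1) (fun j => ∑ T, D.G j T • y T) (g + 2)
    (fun j => Submodule.sum_mem _ fun T _ => Submodule.smul_mem _ _ (hy T))
    (fun _ => L0 D.h1) ?_
  -- the relays take the sources
  refine Net.step (fun _ : Pr => β) (fun p => β + φ (D.P (D.tgt p)))
    (fun p => a p + y (D.src p)) 1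
    (fun p => Has.left (Submodule.add_mem _ (ha p) (hy _))) (fun p => L0 (D.hP _)) ?_
  -- the targets move up
  refine Net.step (fun S => β + φ (D.P S)) (fun _ => β + φ 1)
    (fun S => x S + ∑ p, (if D.tgt p = S then D.E p else 0) • (a p + y (D.src p))) (g + 1)
    (fun S => Submodule.add_mem _ (Has.left (Has.left (hx S)))
      (Submodule.sum_mem _ fun p _ => ?_)) (fun T => L (D.hQ T)) ?_
  · by_cases h : D.tgt p = S
    · subst h
      exact Submodule.smul_mem _ _
        (Has.new (fun p => β + φ (D.P (D.tgt p))) (fun p => a p + y (D.src p)) p)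
    · simp [h]
  -- the sources move up
  refine Net.step (fun _ : σ => β) (fun T => β + φ (1 - D.P T)) y (g + 1)
    (fun T => Has.left (Has.left (Has.left (hy T)))) (fun T => L0 (D.hQ T)) ?_
  refine Net.step (fun p => β + φ (D.P (D.tgt p))) (fun p => β + φ (1 - D.P (D.src p)))
    (fun p => a p + y (D.src p)) g
    (fun p => Has.left (Has.left
      (Has.new (fun p => β + φ (D.P (D.tgt p))) (fun p => a p + y (D.src p)) p)))
    (fun p => L ((D.hPQ p).of_eq (by abel))) ?_
  refine Net.step (fun p => β + φ (1 - D.P (D.src p))) (fun _ => β + φ 1) a 1 (fun p => ?_)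
    (fun p => L ((D.hP (D.src p)).of_eq (by abel))) ?_
  · have e : a p = (a p + y (D.src p)) - y (D.src p) := by abel
    rw [e]
    exact Submodule.sub_mem _
      (Has.new (fun p => β + φ (1 - D.P (D.src p))) (fun p => a p + y (D.src p)) p)
      (Has.left (Has.new (fun T => β + φ (1 - D.P T)) y (D.src p)))
  refine Net.form (fun _ : σ => β + φ 1) (fun T => x T - y T) (fun S => ?_) ?_
  · have e : x S - y S = (x S + ∑ p, (if D.tgt p = S then D.E p else 0) • (a p + y (D.src p))) -
        (∑ p, (if D.tgt p = S then D.E p else 0) • a p) -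
        ∑ j, D.R S j • ∑ T, D.G j T • y T := by
      rw [D.vec]
      simp only [smul_add, Finset.sum_add_distrib]
      abel
    rw [e]
    refine Submodule.sub_mem _ (Submodule.sub_mem _ (Has.left (Has.left (Has.left
      (Has.new (fun _ : σ => β + φ 1) _ S)))) (Submodule.sum_mem _ fun p _ =>
        Submodule.smul_mem _ _ (Has.new (fun _ : Pr => β + φ 1) a p)))
      (Submodule.sum_mem _ fun j _ => Submodule.smul_mem _ _ (Has.left (Has.left (Has.left
        (Has.left (Has.left (Has.new (fun _ : H => β + φ 1) (fun j => ∑ T, D.G j T • y T) j)))))))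
  refine Net.done ?_
  rintro _ ((⟨T, rfl⟩ | ⟨T, rfl⟩) | ⟨p, rfl⟩)
  · exact Or.inr ⟨T, rfl⟩
  · exact Or.inl (Or.inl (Or.inl (Or.inr ⟨T, rfl⟩)))
  · exact Or.inl (Or.inr ⟨p, rfl⟩)

end Crest.Agent.R324
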