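import Mathlib

/-! Layered in-place factorisations of square matrices: definitions only. -/

namespace Crest.Agent.R324

variable {ι : Type*} [Fintype ι] [DecidableEq ι]

/-- Monomial matrix: a permutation times an invertible diagonal. -/
def IsMono (A : Matrix ι ι ℂ) : Prop :=
  ∃ (σ : Equiv.Perm ι) (d : ι → ℂ), (∀ i, d i ≠ 0) ∧ ∀ i j, A i j = if j = σ i then d i else 0

/-- A layer of disjoint shears `x i += μ i * x (τ i)` along an involution `τ`. -/
def IsShear (A : Matrix ι ι ℂ) : Prop :=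
  ∃ (τ : ι → ι) (μ : ι → ℂ), Function.Involutive τ ∧ (∀ i, μ i = 0 ∨ μ (τ i) = 0) ∧
    ∀ i j, A i j = (if j = i then 1 else 0) + (if j = τ i then μ i else 0)

/-- `NF L A`: `A = M₀ E₁ M₁ ⋯ E_L M_L` with `M` monomial and `E` shear layers. -/
def NF : ℕ → Matrix ι ι ℂ → Prop
  | 0, A => IsMono A
  | L + 1, A => ∃ M E B : Matrix ι ι ℂ, IsMono M ∧ IsShear E ∧ NF L B ∧ A = M * E * B

/-- The Fourier matrix of order `s` for the root `ζ`. -/
noncomputable def dft (s : ℕ) (ζ : ℂ) : Matrix (Fin s) (Fin s) ℂ :=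
  Matrix.of fun j k => ζ ^ (j.val * k.val)

end Crest.Agent.R324
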