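import Mathlib
import Crest.Agent.R324.NFDef

/-! Basic closure properties of layered in-place factorisations. -/

set_option autoImplicit false

namespace Crest.Agent.R324

open Matrix

variable {ι κ : Type*} [Fintype ι] [DecidableEq ι] [Fintype κ] [DecidableEq κ]

namespace IsMono

omit [Fintype ι] in
theorem diagonal {d : ι → ℂ} (hd : ∀ i, d i ≠ 0) : IsMono (Matrix.diagonal d) :=
  ⟨1, d, hd, fun i j => by simp [Matrix.diagonal_apply, eq_comm]⟩

omit [Fintype ι] in
theorem one : IsMono (1 : Matrix ι ι ℂ) := diagonal (d := fun _ => 1) fun _ => one_ne_zero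

theorem mul {A B : Matrix ι ι ℂ} (hA : IsMono A) (hB : IsMono B) : IsMono (A * B) := by
  obtain ⟨σ, d, hd, hA⟩ := hA
  obtain ⟨σ', d', hd', hB⟩ := hB
  refine ⟨σ' * σ, fun i => d i * d' (σ i), fun i => mul_ne_zero (hd _) (hd' _), fun i j => ?_⟩
  simp only [Matrix.mul_apply, hA, ite_mul, zero_mul, Finset.sum_ite_eq', Finset.mem_univ, if_true]
  simp [hB]

omit [Fintype ι] in
theorem transpose {A : Matrix ι ι ℂ} (hA : IsMono A) : IsMono Aᵀ := by
  obtain ⟨σ, d, hd, hA⟩ := hA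
  refine ⟨σ⁻¹, fun i => d (σ⁻¹ i), fun i => hd _, fun i j => ?_⟩
  rw [Matrix.transpose_apply, hA]
  by_cases h : i = σ j
  · subst h
    simp
  · rw [if_neg h, if_neg]
    rintro rfl
    simp at h

theorem inv {A : Matrix ι ι ℂ} (hA : IsMono A) : ∃ B, IsMono B ∧ A * B = 1 := by
  obtain ⟨σ, d, hd, hA⟩ := hA
  refine ⟨Matrix.of fun i j => if j = σ⁻¹ i then (d (σ⁻¹ i))⁻¹ else 0,
    ⟨σ⁻¹, fun i => (d (σ⁻¹ i))⁻¹, fun i => inv_ne_zero (hd _), fun _ _ => rfl⟩, ?_⟩
  ext i j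
  simp only [Matrix.mul_apply, hA, ite_mul, zero_mul, Finset.sum_ite_eq', Finset.mem_univ, if_true]
  simp [Matrix.one_apply, hd, eq_comm]

omit [Fintype ι] [Fintype κ] in
theorem submatrix {A : Matrix ι ι ℂ} (hA : IsMono A) (e f : κ ≃ ι) : IsMono (A.submatrix e f) := by
  obtain ⟨σ, d, hd, hA⟩ := hA
  refine ⟨e.trans (σ.trans f.symm), fun i => d (e i), fun i => hd _, fun i j => ?_⟩
  simp [hA, Equiv.eq_symm_apply]

omit [Fintype ι] [Fintype κ] in
theorem fromBlocks {A : Matrix ι ι ℂ} {B : Matrix κ κ ℂ} (hA : IsMono A) (hB : IsMono B) :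
    IsMono (Matrix.fromBlocks A 0 0 B) := by
  obtain ⟨σ, d, hd, hA⟩ := hA
  obtain ⟨σ', d', hd', hB⟩ := hB
  refine ⟨Equiv.sumCongr σ σ', Sum.elim d d', ?_, ?_⟩
  · rintro (i | i)
    · exact hd i
    · exact hd' i
  · rintro (i | i) (j | j) <;> simp [hA, hB]

end IsMono

namespace IsShear

omit [Fintype ι] in
theorem one : IsShear (1 : Matrix ι ι ℂ) :=
  ⟨id, 0, fun _ => rfl, fun _ => Or.inl rfl, fun i j => by simp [Matrix.one_apply, eq_comm]⟩

omit [Fintype ι] in
theorem transpose {A : Matrix ι ι ℂ} (hA : IsShear A) : IsShear Aᵀ := by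
  obtain ⟨τ, μ, hτ, hμ, hA⟩ := hA
  refine ⟨τ, fun i => μ (τ i), hτ, fun i => ?_, fun i j => ?_⟩
  · simpa [hτ i, or_comm] using hμ i
  · rw [Matrix.transpose_apply, hA]
    congr 1
    · simp [eq_comm]
    · by_cases h : i = τ j
      · subst h
        simp [hτ j]
      · rw [if_neg h, if_neg]
        rintro rfl
        simp [hτ i] at h

theorem inv {A : Matrix ι ι ℂ} (hA : IsShear A) : ∃ B, IsShear B ∧ A * B = 1 := by
  obtain ⟨τ, μ, hτ, hμ, hA⟩ := hA
  refine ⟨Matrix.of fun i j => (if j = i then 1 else 0) + (if j = τ i then -μ i else 0),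
    ⟨τ, fun i => -μ i, hτ, fun i => by simpa using hμ i, fun _ _ => rfl⟩, ?_⟩
  ext i j
  simp only [Matrix.mul_apply, hA, Matrix.of_apply, add_mul, Finset.sum_add_distrib, ite_mul,
    one_mul, zero_mul, Finset.sum_ite_eq', Finset.mem_univ, if_true, Matrix.one_apply, hτ i]
  rcases hμ i with h | h
  · simp [h, eq_comm]
  · simp only [h, neg_zero, ite_self, add_zero, mul_ite, mul_one, mul_zero]
    by_cases h1 : j = τ i <;> by_cases h2 : j = i
    · rw [if_pos h1, if_pos h1, if_pos h2, if_pos h2.symm]; ring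
    · rw [if_pos h1, if_pos h1, if_neg h2, if_neg (Ne.symm h2)]; ring
    · rw [if_neg h1, if_neg h1, if_pos h2, if_pos h2.symm]; ring
    · rw [if_neg h1, if_neg h1, if_neg h2, if_neg (Ne.symm h2)]; ring

omit [Fintype ι] [Fintype κ] in
theorem submatrix {A : Matrix ι ι ℂ} (hA : IsShear A) (e : κ ≃ ι) : IsShear (A.submatrix e e) := by
  obtain ⟨τ, μ, hτ, hμ, hA⟩ := hA
  refine ⟨fun i => e.symm (τ (e i)), fun i => μ (e i), fun i => by simp [hτ (e i)],
    fun i => by simpa using hμ (e i), fun i j => ?_⟩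
  simp [hA, Equiv.eq_symm_apply]

omit [Fintype ι] [Fintype κ] in
theorem fromBlocks {A : Matrix ι ι ℂ} {B : Matrix κ κ ℂ} (hA : IsShear A) (hB : IsShear B) :
    IsShear (Matrix.fromBlocks A 0 0 B) := by
  obtain ⟨τ, μ, hτ, hμ, hA⟩ := hA
  obtain ⟨τ', μ', hτ', hμ', hB⟩ := hB
  refine ⟨Sum.map τ τ', Sum.elim μ μ', ?_, ?_, ?_⟩
  · rintro (i | i)
    · simp [hτ i]
    · simp [hτ' i]
  · rintro (i | i)
    · simpa using hμ i
    · simpa using hμ' i
  · rintro (i | i) (j | j) <;> simp [hA, hB]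

omit [Fintype ι] in
theorem lower (d : ι → ℂ) :
    IsShear (Matrix.fromBlocks (1 : Matrix ι ι ℂ) 0 (Matrix.diagonal d) (1 : Matrix ι ι ℂ)) := by
  refine ⟨Sum.swap, Sum.elim 0 d, Sum.swap_swap, ?_, ?_⟩
  · rintro (i | i) <;> simp
  · rintro (i | i) (j | j) <;> simp [Matrix.one_apply, Matrix.diagonal_apply, eq_comm]

end IsShear

namespace NF

theorem of_mono {A : Matrix ι ι ℂ} (h : IsMono A) : NF 0 A := h

theorem of_shear {A : Matrix ι ι ℂ} (h : IsShear A) : NF 1 A :=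
  ⟨1, A, 1, IsMono.one, h, IsMono.one, by simp⟩

theorem mono_mul {L : ℕ} {M A : Matrix ι ι ℂ} (hM : IsMono M) (h : NF L A) : NF L (M * A) := by
  cases L with
  | zero => exact IsMono.mul hM h
  | succ L =>
    obtain ⟨M', E, B, h1, h2, h3, rfl⟩ := h
    exact ⟨M * M', E, B, hM.mul h1, h2, h3, by simp only [Matrix.mul_assoc]⟩

theorem mul {a b : ℕ} {A B : Matrix ι ι ℂ} (hA : NF a A) (hB : NF b B) : NF (a + b) (A * B) := by
  induction a generalizing A with
  | zero => simpa using mono_mul hA hB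
  | succ a ih =>
    obtain ⟨M, E, C, h1, h2, h3, rfl⟩ := hA
    rw [Nat.add_right_comm]
    exact ⟨M, E, C * B, h1, h2, ih h3, by simp only [Matrix.mul_assoc]⟩

theorem mul_mono {L : ℕ} {M A : Matrix ι ι ℂ} (h : NF L A) (hM : IsMono M) : NF L (A * M) :=
  h.mul (of_mono hM)

theorem succ {L : ℕ} {A : Matrix ι ι ℂ} (h : NF L A) : NF (L + 1) A :=
  ⟨1, 1, A, IsMono.one, IsShear.one, h, by simp⟩

theorem mono {L L' : ℕ} {A : Matrix ι ι ℂ} (h : NF L A) (hL : L ≤ L') : NF L' A := by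
  induction hL with
  | refl => exact h
  | step _ ih => exact ih.succ

theorem one (L : ℕ) : NF L (1 : Matrix ι ι ℂ) := (of_mono IsMono.one).mono (Nat.zero_le _)

theorem transpose {L : ℕ} {A : Matrix ι ι ℂ} (h : NF L A) : NF L Aᵀ := by
  induction L generalizing A with
  | zero => exact IsMono.transpose h
  | succ L ih =>
    obtain ⟨M, E, B, h1, h2, h3, rfl⟩ := h
    rw [Matrix.transpose_mul, Matrix.transpose_mul]
    exact (ih h3).mul ((of_shear h2.transpose).mul_mono h1.transpose)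

theorem inv {L : ℕ} {A : Matrix ι ι ℂ} (h : NF L A) : ∃ B, NF L B ∧ A * B = 1 ∧ B * A = 1 := by
  suffices ∃ B, NF L B ∧ A * B = 1 by
    obtain ⟨B, h1, h2⟩ := this
    exact ⟨B, h1, h2, mul_eq_one_comm.1 h2⟩
  induction L generalizing A with
  | zero => exact IsMono.inv h
  | succ L ih =>
    obtain ⟨M, E, B, h1, h2, h3, rfl⟩ := h
    obtain ⟨M', m1, m2⟩ := h1.inv
    obtain ⟨E', e1, e2⟩ := h2.inv
    obtain ⟨B', b1, b2⟩ := ih h3
    refine ⟨B' * (E' * M'), b1.mul ((of_shear e1).mul_mono m1), ?_⟩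
    calc M * E * B * (B' * (E' * M')) = M * (E * (B * B') * E') * M' := by
          simp only [Matrix.mul_assoc]
      _ = 1 := by rw [b2, Matrix.mul_one, e2, Matrix.mul_one, m2]

theorem isUnit {L : ℕ} {A : Matrix ι ι ℂ} (h : NF L A) : IsUnit A := by
  obtain ⟨B, -, h1, h2⟩ := h.inv
  exact ⟨⟨A, B, h1, h2⟩, rfl⟩

theorem submatrix_same {L : ℕ} {A : Matrix ι ι ℂ} (h : NF L A) (e : κ ≃ ι) :
    NF L (A.submatrix e e) := by
  induction L generalizing A with
  | zero => exact IsMono.submatrix h e e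
  | succ L ih =>
    obtain ⟨M, E, B, h1, h2, h3, rfl⟩ := h
    exact ⟨_, _, _, h1.submatrix e e, h2.submatrix e, ih h3, by
      rw [Matrix.submatrix_mul_equiv, Matrix.submatrix_mul_equiv]⟩

theorem submatrix {L : ℕ} {A : Matrix ι ι ℂ} (h : NF L A) (e f : κ ≃ ι) :
    NF L (A.submatrix e f) := by
  have := (h.submatrix_same e).mul_mono (IsMono.one.submatrix e f)
  rwa [Matrix.submatrix_mul_equiv, Matrix.mul_one] at this

theorem of_submatrix {L : ℕ} {A : Matrix ι ι ℂ} (e f : κ ≃ ι) (h : NF L (A.submatrix e f)) :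
    NF L A := by
  simpa using h.submatrix e.symm f.symm

theorem fromBlocks {L : ℕ} {A : Matrix ι ι ℂ} {B : Matrix κ κ ℂ} (hA : NF L A) (hB : NF L B) :
    NF L (Matrix.fromBlocks A 0 0 B) := by
  induction L generalizing A B with
  | zero => exact IsMono.fromBlocks hA hB
  | succ L ih =>
    obtain ⟨M, E, C, h1, h2, h3, rfl⟩ := hA
    obtain ⟨M', E', C', h1', h2', h3', rfl⟩ := hB
    exact ⟨_, _, _, h1.fromBlocks h1', h2.fromBlocks h2', ih h3 h3', by
      simp [Matrix.fromBlocks_multiply]⟩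

theorem extend {L : ℕ} {A : Matrix κ κ ℂ} (h : NF L A) (f : κ → ι) (hf : Function.Injective f)
    {B : Matrix ι ι ℂ} (h1 : ∀ i j, B (f i) (f j) = A i j)
    (h2 : ∀ i j, i ∉ Set.range f ∨ j ∉ Set.range f → B i j = (1 : Matrix ι ι ℂ) i j) :
    NF L B := by
  classical
  let e : κ ⊕ {i // i ∉ Set.range f} ≃ ι :=
    (Equiv.sumCongr (Equiv.ofInjective f hf) (Equiv.refl _)).trans
      (Equiv.sumCompl (· ∈ Set.range f))
  refine of_submatrix e e ?_
  have := h.fromBlocks (one (ι := {i // i ∉ Set.range f}) L)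
  convert this using 1
  ext (i | i) (j | j)
  · simpa [e] using h1 i j
  · have := h2 (f i) j (Or.inr j.2)
    rw [Matrix.one_apply_ne (fun h => j.2 ⟨i, h⟩)] at this
    simpa [e] using this
  · have := h2 i (f j) (Or.inl i.2)
    rw [Matrix.one_apply_ne (fun h => i.2 ⟨j, h.symm⟩)] at this
    simpa [e] using this
  · have := h2 i j (Or.inl i.2)
    simpa [e, Matrix.one_apply, Subtype.ext_iff] using this

end NF

end Crest.Agent.R324
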