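import Crest.Agent.R324.Frame
import Crest.Agent.R324.NFBasic

/-! Cost of a tensor product of layered matrices. -/

namespace Crest.Agent.R324

open Set Complex
open scoped Kronecker

/-- The `2 × 2` shear. -/
noncomputable def Z2 (μ : ℂ) : Matrix (ZMod 2) (ZMod 2) ℂ :=
  Matrix.of fun a b => (if b = a then 1 else 0) + if a = 1 ∧ b = 0 then μ else 0

lemma Z2_decomp (μ : ℂ) : ∃ a d e b : ZMod 2 → ℂ, Z2 μ = Matrix.diagonal a * C2 *
    Matrix.diagonal d * C2 * Matrix.diagonal e * C2 * Matrix.diagonal b := by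
  have h11 : (1 : ZMod 2) + 1 = 0 := by decide
  by_cases hμ : μ = 0
  · refine ⟨fun x => if x = 0 then -I else 1, fun x => if x = 0 then 1 else I,
      fun x => if x = 0 then 1 else I, fun _ => 1, ?_⟩
    ext i j
    rcases zmod2_cases i with rfl | rfl <;> rcases zmod2_cases j with rfl | rfl <;>
      simp [Z2, hμ, Matrix.mul_apply, sum_zmod2, C2, c0, h11, Matrix.diagonal_apply,
        Complex.ext_iff] <;> norm_num
  · refine ⟨fun x => if x = 0 then (1 + I) / 2 else μ * (2 * (1 - I) / 5),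
      fun x => if x = 0 then 1 else 3,
      fun x => if x = 0 then 1 else 1 / 2, fun x => if x = 0 then 1 else 5 * I / 3 * μ⁻¹, ?_⟩
    ext i j
    rcases zmod2_cases i with rfl | rfl <;> rcases zmod2_cases j with rfl | rfl <;>
      simp [Z2, Matrix.mul_apply, sum_zmod2, C2, c0, h11, Matrix.diagonal_apply] <;>
      field_simp <;> ring_nf <;> simp [pow_succ, mul_assoc] <;> ring_nf

lemma IsShear.exists_pairs {ι : Type} [Fintype ι] [DecidableEq ι] (hev : Even (Fintype.card ι))
    {E : Matrix ι ι ℂ} (hE : IsShear E) :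
    ∃ (J : Type) (_ : Fintype J) (_ : DecidableEq J) (e : ZMod 2 × J ≃ ι) (ν : J → ℂ),
      E.submatrix e e = Matrix.blockDiagonal fun j => Z2 (ν j) := by
  classical
  obtain ⟨τ, μ, hτ, hμ, hE⟩ := hE
  let f : ZMod 2 × {i // μ i ≠ 0} → ι := fun p => if p.1 = 0 then τ p.2 else p.2
  have hf : Function.Injective f := by
    rintro ⟨a, t, ht⟩ ⟨a', t', ht'⟩ h
    rcases zmod2_cases a with rfl | rfl <;> rcases zmod2_cases a' with rfl | rfl <;>
      simp only [f, if_true, one_ne_zero, if_false] at h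
    · simp [hτ.injective h]
    · exact absurd ((hμ t).resolve_left ht) (h ▸ ht')
    · exact absurd ((hμ t').resolve_left ht') (h ▸ ht)
    · simp [h]
  have hc : Fintype.card {x // ¬ x ∈ range f} =
      Fintype.card ι - 2 * Fintype.card {i // μ i ≠ 0} := by
    rw [Fintype.card_subtype_compl, ← Fintype.card_congr (Equiv.ofInjective f hf)]
    simp
  obtain ⟨k, hk⟩ : ∃ k, Fintype.card {x // ¬ x ∈ range f} = 2 * k := by
    obtain ⟨n, hn⟩ := hev
    exact ⟨n - Fintype.card {i // μ i ≠ 0}, by omega⟩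
  let e2 : ZMod 2 × Fin k ≃ {x // ¬ x ∈ range f} := Fintype.equivOfCardEq (by rw [hk]; simp)
  let e : ZMod 2 × ({i // μ i ≠ 0} ⊕ Fin k) ≃ ι := (Equiv.prodSumDistrib _ _ _).trans
    ((Equiv.sumCongr (Equiv.ofInjective f hf) e2).trans (Equiv.sumCompl (· ∈ range f)))
  let ν : {i // μ i ≠ 0} ⊕ Fin k → ℂ := Sum.elim (fun t => μ t) fun _ => 0
  have he1 : ∀ a t, e (a, Sum.inl t) = f (a, t) := fun _ _ => rfl
  have he2 : ∀ a j, e (a, Sum.inr j) = e2 (a, j) := fun _ _ => rfl
  have h1 : ∀ a j, μ (e (a, j)) = if a = 1 then ν j else 0 := by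
    rintro a (t | j)
    · rw [he1]
      rcases zmod2_cases a with rfl | rfl
      · simpa [f] using (hμ t).resolve_left t.2
      · simp [f, ν]
    · rw [he2]
      have := (e2 (a, j)).2
      simp only [ν, Sum.elim_inr, ite_self]
      by_contra h
      exact this ⟨(1, ⟨_, h⟩), by simp [f]⟩
  have h2 : ∀ j, ν j ≠ 0 → τ (e (1, j)) = e (0, j) := by
    rintro (t | j) h
    · simp [he1, f]
    · exact absurd rfl h
  refine ⟨_, inferInstance, inferInstance, e, ν, ?_⟩
  ext ⟨a, j⟩ ⟨b, j'⟩
  rw [Matrix.submatrix_apply, hE, h1, Matrix.blockDiagonal_apply]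
  simp only [Z2, Matrix.of_apply, e.injective.eq_iff, Prod.mk.injEq]
  by_cases hν : ν j = 0
  · by_cases hj : j = j'
    · simp [hν, hj.symm]
    · simp [hν, hj, Ne.symm hj]
  · rcases zmod2_cases a with rfl | rfl
    · by_cases hj : j = j'
      · simp [hj]
      · simp [hj, Ne.symm hj]
    · rw [h2 j hν]
      by_cases hj : j = j'
      · simp [hj]
      · simp [hj, Ne.symm hj]

lemma IsShear.exists_decomp {ι : Type} [Fintype ι] [DecidableEq ι]
    (hev : Even (Fintype.card ι)) {E : Matrix ι ι ℂ} (hE : IsShear E) :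
    ∃ (J : Type) (_ : Fintype J) (_ : DecidableEq J) (e : ι ≃ ZMod 2 × J) (a d c b : ι → ℂ),
      E = Matrix.diagonal a * (C2 ⊗ₖ (1 : Matrix J J ℂ)).submatrix e e * Matrix.diagonal d *
        (C2 ⊗ₖ (1 : Matrix J J ℂ)).submatrix e e * Matrix.diagonal c *
        (C2 ⊗ₖ (1 : Matrix J J ℂ)).submatrix e e * Matrix.diagonal b := by
  obtain ⟨J, _, _, e, ν, h⟩ := hE.exists_pairs hev
  choose a d c b habcd using fun j => Z2_decomp (ν j)
  have hC : C2 ⊗ₖ (1 : Matrix J J ℂ) = Matrix.blockDiagonal fun _ => C2 := by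
    ext ⟨x, j⟩ ⟨y, j'⟩
    simp [Matrix.blockDiagonal_apply, Matrix.one_apply]
  have hD : ∀ u : J → ZMod 2 → ℂ, Matrix.diagonal (fun i => u (e.symm i).2 (e.symm i).1) =
      (Matrix.blockDiagonal fun j => Matrix.diagonal (u j)).submatrix e.symm e.symm := by
    intro u
    rw [Matrix.blockDiagonal_diagonal, Matrix.submatrix_diagonal_equiv]
    rfl
  refine ⟨J, inferInstance, inferInstance, e.symm, fun i => a (e.symm i).2 (e.symm i).1,
    fun i => d (e.symm i).2 (e.symm i).1, fun i => c (e.symm i).2 (e.symm i).1,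
    fun i => b (e.symm i).2 (e.symm i).1, ?_⟩
  rw [hC, hD, hD, hD, hD]
  simp only [Matrix.submatrix_mul_equiv, ← Matrix.blockDiagonal_mul, ← habcd, ← h]
  simp

variable {r : ℕ} {ι : Fin r → Type} [∀ i, Fintype (ι i)] [∀ i, DecidableEq (ι i)]

lemma cost_tens_diagonal (d : ∀ i, ι i → ℂ) :
    cost (tens fun i => Matrix.diagonal (d i)) ≤ Fintype.card (∀ i, ι i) :=
  cost_sparse _ id (fun x => ∏ i, d i (x i)) fun x y => by
    simp only [tens_apply, Matrix.diagonal_apply, id, Finset.prod_ite_zero, Finset.mem_univ,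
      forall_const, funext_iff, eq_comm]

lemma cost_tens_mono (A : ∀ i, Matrix (ι i) (ι i) ℂ) (hA : ∀ i, IsMono (A i)) :
    cost (tens A) ≤ Fintype.card (∀ i, ι i) := by
  choose σ d _ h using hA
  exact cost_sparse _ (fun x i => σ i (x i)) (fun x => ∏ i, d i (x i)) fun x y => by
    simp only [tens_apply, h, Finset.prod_ite_zero, Finset.mem_univ, forall_const, funext_iff]

lemma cost_tens_C {J : Fin r → Type} [∀ i, Fintype (J i)] [∀ i, DecidableEq (J i)]
    (e : ∀ i, ι i ≃ ZMod 2 × J i) :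
    (cost (tens fun i => (C2 ⊗ₖ (1 : Matrix (J i) (J i) ℂ)).submatrix (e i) (e i)) : ℝ) ≤
      Fintype.card (∀ i, ι i) * (gc r / 2 ^ r) := by
  let F : (∀ i, ι i) → (Fin r → ZMod 2) × (∀ i, J i) := fun x =>
    (fun i => (e i (x i)).1, fun i => (e i (x i)).2)
  have hF : Function.Injective F := by
    intro x y h
    funext i
    apply (e i).injective
    exact Prod.ext (congrFun (congrArg Prod.fst h) i) (congrFun (congrArg Prod.snd h) i)
  have h1 : (tens fun i => (C2 ⊗ₖ (1 : Matrix (J i) (J i) ℂ)).submatrix (e i) (e i)) =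
      (CT (Fin r) ⊗ₖ (1 : Matrix (∀ i, J i) (∀ i, J i) ℂ)).submatrix F F := by
    ext x y
    rw [← tens_one]
    simp only [tens_apply, Matrix.submatrix_apply, Matrix.kroneckerMap_apply, CT, F,
      Finset.prod_mul_distrib]
  have h2 := (cost_submatrix _ F F hF).trans
    (cost_kron_one (γ := ∀ i, J i) (CT (Fin r)))
  have h3 : Fintype.card (∀ i, ι i) = 2 ^ r * Fintype.card (∀ i, J i) := by
    simp only [Fintype.card_pi, fun i => Fintype.card_congr (e i), Fintype.card_prod, ZMod.card,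
      Finset.prod_mul_distrib, Finset.prod_const, Finset.card_univ, Fintype.card_fin]
  rw [h1, h3]
  push_cast
  calc _ ≤ (Fintype.card (∀ i, J i) : ℝ) * gc r := by exact_mod_cast h2
    _ = _ := by field_simp

lemma cost_tens_shear (hev : ∀ i, Even (Fintype.card (ι i))) (E : ∀ i, Matrix (ι i) (ι i) ℂ)
    (hE : ∀ i, IsShear (E i)) :
    (cost (tens E) : ℝ) ≤ Fintype.card (∀ i, ι i) * (4 + 3 * (gc r / 2 ^ r)) := by
  choose J iJ dJ e a d c b h using fun i => (hE i).exists_decomp (hev i)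
  have hE' : E = _ := funext h
  rw [hE']
  simp only [tens_mul]
  have hK := cost_tens_C e
  set K := tens fun i => (C2 ⊗ₖ (1 : Matrix (J i) (J i) ℂ)).submatrix (e i) (e i)
  have ha := cost_tens_diagonal a
  have hb := cost_tens_diagonal b
  have hc := cost_tens_diagonal c
  have hd := cost_tens_diagonal d
  set Da := tens fun i => Matrix.diagonal (a i)
  set Db := tens fun i => Matrix.diagonal (b i)
  set Dc := tens fun i => Matrix.diagonal (c i)
  set Dd := tens fun i => Matrix.diagonal (d i)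
  have h1 := cost_mul (Da * K * Dd * K * Dc * K) Db
  have h2 := cost_mul (Da * K * Dd * K * Dc) K
  have h3 := cost_mul (Da * K * Dd * K) Dc
  have h4 := cost_mul (Da * K * Dd) K
  have h5 := cost_mul (Da * K) Dd
  have h6 := cost_mul Da K
  have h7 : cost (Da * K * Dd * K * Dc * K * Db) ≤ 4 * Fintype.card (∀ i, ι i) + 3 * cost K := by
    omega
  have h8 : (cost (Da * K * Dd * K * Dc * K * Db) : ℝ) ≤
      4 * Fintype.card (∀ i, ι i) + 3 * cost K := by exact_mod_cast h7
  linarith

theorem cost_tens_NF (hev : ∀ i, Even (Fintype.card (ι i))) (L : ℕ) :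
    ∀ (A : ∀ i, Matrix (ι i) (ι i) ℂ), (∀ i, NF L (A i)) →
      (cost (tens A) : ℝ) ≤ Fintype.card (∀ i, ι i) * ((L + 1) * (5 + 3 * (gc r / 2 ^ r))) := by
  have h0 : (0 : ℝ) ≤ gc r / 2 ^ r := by positivity
  have hN : (0 : ℝ) ≤ Fintype.card (∀ i, ι i) := by positivity
  induction L with
  | zero =>
    intro A hA
    have : (cost (tens A) : ℝ) ≤ Fintype.card (∀ i, ι i) := by
      exact_mod_cast cost_tens_mono A hA
    push_cast
    nlinarith
  | succ L ih =>
    intro A hA
    choose M E B hM hE hB h using hA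
    have hA' : A = _ := funext h
    rw [hA']
    simp only [tens_mul]
    have h1 := cost_mul (tens M * tens E) (tens B)
    have h2 := cost_mul (tens M) (tens E)
    have h3 := cost_tens_mono M hM
    have h4 : cost (tens M * tens E * tens B) ≤
        cost (tens B) + cost (tens E) + Fintype.card (∀ i, ι i) := by omega
    have h5 : (cost (tens M * tens E * tens B) : ℝ) ≤
        cost (tens B) + cost (tens E) + Fintype.card (∀ i, ι i) := by exact_mod_cast h4
    have h6 := ih B hB
    have h7 := cost_tens_shear hev E hE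
    push_cast
    nlinarith

end Crest.Agent.R324
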