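import Mathlib

set_option autoImplicit false

namespace Crest.Agent.R324

theorem moduli_lcm_le (N : ℕ) : Nat.lcmUpto N ≤ (N + 1) ^ (Nat.primeCounting N) := by
  rw [Nat.lcmUpto_eq_prod_pow_log]
  have hcard : (Nat.primesLE N).card = Nat.primeCounting N := by
    exact Nat.primesLE_card_eq_primeCounting N
  rw [← hcard, ← Finset.prod_const]
  refine Finset.prod_le_prod' fun p _ => ?_
  rcases Nat.eq_zero_or_pos N with rfl | hN
  · simp
  · exact (Nat.pow_log_le_self p hN.ne').trans (Nat.le_succ _)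

theorem moduli_nth_prime_le (m : ℕ) : Nat.nth Nat.Prime m ≤ 6 * (m + 1) ^ 2 := by
  set x := m + 1 with hx
  set N := 6 * x ^ 2 with hN
  have h1 : m < Nat.primeCounting N := by
    by_contra hcon
    push Not at hcon
    have h2 := Chebyshev.two_pow_le_mul_lcmUpto N
    have h3 : (N + 1) * Nat.lcmUpto N ≤ (N + 1) ^ x := by
      calc (N + 1) * Nat.lcmUpto N ≤ (N + 1) * (N + 1) ^ m :=
            Nat.mul_le_mul_left _ ((moduli_lcm_le N).trans
              (Nat.pow_le_pow_right (Nat.succ_pos _) hcon))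
        _ = (N + 1) ^ x := by rw [hx]; ring
    have h4 : x < 2 ^ x := Nat.lt_two_pow_self
    have h5 : N + 1 ≤ 2 ^ (2 * x + 3) := by
      have : 2 ^ (2 * x + 3) = 8 * (2 ^ x) ^ 2 := by ring
      rw [this, hN]
      nlinarith
    have h6 : (N + 1) ^ x ≤ 2 ^ ((2 * x + 3) * x) := by
      rw [pow_mul]; exact Nat.pow_le_pow_left h5 _
    have h7 : 2 ^ N ≤ 2 ^ ((2 * x + 3) * x) := h2.trans (h3.trans h6)
    have h8 := (Nat.pow_le_pow_iff_right (by norm_num : 1 < 2)).1 h7
    have : 1 ≤ x := by omega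
    rw [hN] at h8
    nlinarith
  have : Nat.nth Nat.Prime m < N + 1 := Nat.nth_lt_of_lt_count h1
  omega

theorem moduli_telescope (p : ℕ → ℕ) (R : ℕ) (hp : ∀ i, R + i + 2 ≤ p i) (k : ℕ) :
    (∏ i ∈ Finset.range k, (p i + 1)) * (R + 2) ≤ (∏ i ∈ Finset.range k, p i) * (R + k + 2) := by
  induction k with
  | zero => simp
  | succ k ih =>
    rw [Finset.prod_range_succ, Finset.prod_range_succ]
    have h1 : (R + k + 2) * (p k + 1) ≤ p k * (R + (k + 1) + 2) := by
      have := hp k
      nlinarith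
    calc (∏ i ∈ Finset.range k, (p i + 1)) * (p k + 1) * (R + 2)
        = ((∏ i ∈ Finset.range k, (p i + 1)) * (R + 2)) * (p k + 1) := by ring
      _ ≤ ((∏ i ∈ Finset.range k, p i) * (R + k + 2)) * (p k + 1) := Nat.mul_le_mul_right _ ih
      _ = (∏ i ∈ Finset.range k, p i) * ((R + k + 2) * (p k + 1)) := by ring
      _ ≤ (∏ i ∈ Finset.range k, p i) * (p k * (R + (k + 1) + 2)) := Nat.mul_le_mul_left _ h1
      _ = _ := by ring

theorem exists_moduli : ∃ c : ℕ, ∀ n : ℕ, 1 ≤ n → ∃ (r : ℕ) (s : Fin r → ℕ), (∀ i, 0 < s i) ∧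
    Pairwise (fun i j => Nat.Coprime (s i) (s j)) ∧ 2 * n ≤ ∏ i, s i ∧
    ∏ i, (s i + s i % 2) ≤ c * n ∧ r ≤ Nat.log 2 n + c ∧
    ∀ i, s i ≤ c * (Nat.log 2 n + 1) ^ 2 := by
  classical
  refine ⟨108, fun n hn => ?_⟩
  set L := Nat.log 2 n with hL
  have hnL : n < 2 ^ (L + 1) := Nat.lt_pow_succ_log_self (by norm_num) n
  let p : ℕ → ℕ := fun i => Nat.nth Nat.Prime (L + 1 + i)
  have hpp : ∀ i, (p i).Prime := fun i => Nat.prime_nth_prime _
  have hp2 : ∀ i, L + 1 + i + 2 ≤ p i := fun i => Nat.add_two_le_nth_prime _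
  have hpmono : StrictMono p := fun i j hij =>
    Nat.nth_strictMono Nat.infinite_setOfPred_prime (by omega)
  have hpow : ∀ k, 2 ^ k ≤ ∏ i ∈ Finset.range k, p i := by
    intro k
    calc 2 ^ k = ∏ _i ∈ Finset.range k, 2 := by simp
      _ ≤ _ := Finset.prod_le_prod' fun i _ => (hpp i).two_le
  have hex : ∃ k, 2 * n < ∏ i ∈ Finset.range (k + 1), p i := by
    refine ⟨L + 1, lt_of_lt_of_le ?_ (hpow _)⟩
    rw [pow_succ]; omega
  set k := Nat.find hex with hk
  have hk1 : 2 * n < ∏ i ∈ Finset.range (k + 1), p i := Nat.find_spec hex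
  have hkL : k ≤ L + 1 := by
    refine Nat.find_min' hex (lt_of_lt_of_le ?_ (hpow _))
    rw [pow_succ]; omega
  set P := ∏ i ∈ Finset.range k, p i with hP
  have hPpos : 0 < P := Finset.prod_pos fun i _ => (hpp i).pos
  have hP2 : P ≤ 2 * n := by
    rcases Nat.eq_zero_or_pos k with h0 | h0
    · rw [hP, h0]; simp; omega
    · have := Nat.find_min hex (m := k - 1) (by omega)
      rw [show k - 1 + 1 = k by omega] at this
      omega
  have hexa : ∃ a, 2 * n ≤ 2 ^ a * P := by
    refine ⟨L + 2, ?_⟩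
    have : 2 ^ (L + 2) ≤ 2 ^ (L + 2) * P := Nat.le_mul_of_pos_right _ hPpos
    rw [pow_succ] at this ⊢
    omega
  set a := Nat.find hexa with ha
  have ha1 : 2 * n ≤ 2 ^ a * P := Nat.find_spec hexa
  have ha2 : 2 ^ a * P ≤ 4 * n ∧ 2 ^ a ≤ 2 * p k := by
    rcases Nat.eq_zero_or_pos a with h0 | h0
    · rw [h0]
      have := (hpp k).pos
      constructor <;> omega
    · have := Nat.find_min hexa (m := a - 1) (by omega)
      push Not at this
      have h2 : 2 ^ a = 2 * 2 ^ (a - 1) := by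
        conv_lhs => rw [show a = (a - 1) + 1 by omega, pow_succ]
        ring
      rw [Finset.prod_range_succ] at hk1
      constructor
      · rw [h2]; nlinarith
      · rw [h2]
        have h3 : 2 ^ (a - 1) * P < p k * P := by nlinarith
        have := Nat.lt_of_mul_lt_mul_right h3
        omega
  have hpk : p k ≤ 54 * (L + 1) ^ 2 := by
    have := moduli_nth_prime_le (L + 1 + k)
    have h2 : (L + 1 + k + 1) ^ 2 ≤ (3 * (L + 1)) ^ 2 := Nat.pow_le_pow_left (by omega) 2
    calc p k ≤ 6 * (L + 1 + k + 1) ^ 2 := this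
      _ ≤ 6 * (3 * (L + 1)) ^ 2 := Nat.mul_le_mul_left _ h2
      _ = _ := by ring
  have hcop : ∀ i, Nat.Coprime (2 ^ a) (p i) := fun i =>
    Nat.Coprime.pow_left _ ((Nat.coprime_primes Nat.prime_two (hpp i)).2 (by have := hp2 i; omega))
  refine ⟨k + 1, Fin.cons (2 ^ a) (fun i : Fin k => p i), ?_, ?_, ?_, ?_, by omega, ?_⟩
  · intro i
    refine Fin.cases ?_ (fun j => ?_) i
    · simp
    · simpa using (hpp j).pos
  · intro i j hij
    induction i using Fin.cases with
    | zero =>
      induction j using Fin.cases with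
      | zero => exact absurd rfl hij
      | succ j => simpa only [Fin.cons_zero, Fin.cons_succ] using hcop j
    | succ i =>
      induction j using Fin.cases with
      | zero => simpa only [Fin.cons_zero, Fin.cons_succ] using (hcop i).symm
      | succ j =>
        simp only [Fin.cons_succ]
        refine (Nat.coprime_primes (hpp i) (hpp j)).2 fun h => hij ?_
        have := hpmono.injective h
        congr 1
        exact Fin.ext this
  · rw [Fin.prod_univ_succ]
    simp only [Fin.cons_zero, Fin.cons_succ]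
    rw [Fin.prod_univ_eq_prod_range p k]
    exact ha1
  · rw [Fin.prod_univ_succ]
    simp only [Fin.cons_zero, Fin.cons_succ]
    rw [Fin.prod_univ_eq_prod_range (fun i => p i + p i % 2) k]
    have h1 : ∏ i ∈ Finset.range k, (p i + p i % 2) ≤ ∏ i ∈ Finset.range k, (p i + 1) :=
      Finset.prod_le_prod' fun i _ => by omega
    have h2 := moduli_telescope p (L + 1) hp2 k
    have h3 : (∏ i ∈ Finset.range k, (p i + 1)) * (L + 1 + 2) ≤ (2 * P) * (L + 1 + 2) := by
      refine h2.trans ?_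
      rw [← hP]
      nlinarith
    have h4 := Nat.le_of_mul_le_mul_right h3 (by omega)
    have h5 : 2 ^ a + 2 ^ a % 2 ≤ 2 * 2 ^ a := by
      have : 0 < 2 ^ a := by positivity
      omega
    calc (2 ^ a + 2 ^ a % 2) * ∏ i ∈ Finset.range k, (p i + p i % 2)
        ≤ (2 * 2 ^ a) * (2 * P) := Nat.mul_le_mul h5 (h1.trans h4)
      _ = 4 * (2 ^ a * P) := by ring
      _ ≤ 108 * n := by omega
  · intro i
    refine Fin.cases ?_ (fun j => ?_) i
    · simp only [Fin.cons_zero]
      omega
    · simp only [Fin.cons_succ]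
      have : p j ≤ p k := hpmono.monotone j.2.le
      omega

end Crest.Agent.R324
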