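import Mathlib
import Crest.Agent.R324.NFBasic

/-! Block shears, the radix-two FFT and Toeplitz shears. -/

set_option autoImplicit false

namespace Crest.Agent.R324

open Matrix

variable {α β α' β' : Type*} [Fintype α] [DecidableEq α] [Fintype β] [DecidableEq β]
  [Fintype α'] [DecidableEq α'] [Fintype β'] [DecidableEq β']

/-- The block shear by `M` has a layered factorisation of length `L`. -/
def ShOK (L : ℕ) (M : Matrix α β ℂ) : Prop :=
  NF L (Matrix.fromBlocks (1 : Matrix β β ℂ) 0 M (1 : Matrix α α ℂ))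

namespace ShOK

theorem mono {L L' : ℕ} {M : Matrix α β ℂ} (h : ShOK L M) (hL : L ≤ L') : ShOK L' M :=
  NF.mono h hL

theorem zero (L : ℕ) : ShOK L (0 : Matrix α β ℂ) := by
  unfold ShOK
  rw [Matrix.fromBlocks_one]
  exact NF.one L

theorem add {a b : ℕ} {M M' : Matrix α β ℂ} (h : ShOK a M) (h' : ShOK b M') :
    ShOK (a + b) (M + M') := by
  have := NF.mul h h'
  simpa [ShOK, Matrix.fromBlocks_multiply] using this

theorem sum {ι : Type*} (s : Finset ι) {L : ℕ} {M : ι → Matrix α β ℂ} (h : ∀ i, ShOK L (M i)) :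
    ShOK (s.card * L) (∑ i ∈ s, M i) := by
  classical
  induction s using Finset.induction_on with
  | empty => simpa using zero 0
  | insert i s hi ih =>
    rw [Finset.sum_insert hi, Finset.card_insert_of_notMem hi, add_mul, one_mul, add_comm]
    exact (h i).add ih

theorem conj {a L : ℕ} {P : Matrix α α ℂ} {Q : Matrix β β ℂ} {M : Matrix α β ℂ} (hP : NF a P)
    (hQ : NF a Q) (h : ShOK L M) : ShOK (a + L + a) (P * M * Q) := by
  obtain ⟨P', p1, p2, -⟩ := hP.inv
  obtain ⟨Q', q1, -, q2⟩ := hQ.inv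
  have := ((q1.fromBlocks hP).mul h).mul (hQ.fromBlocks p1)
  simpa [ShOK, Matrix.fromBlocks_multiply, p2, q2] using this

theorem diagonal (d : α → ℂ) : ShOK 1 (Matrix.diagonal d) := NF.of_shear (IsShear.lower d)

theorem upper {L : ℕ} {M : Matrix α β ℂ} (h : ShOK L M) :
    NF L (Matrix.fromBlocks (1 : Matrix α α ℂ) M 0 (1 : Matrix β β ℂ)) := by
  have := NF.submatrix h (Equiv.sumComm α β) (Equiv.sumComm α β)
  simpa using this

theorem mask_left {L : ℕ} {M : Matrix α β ℂ} (h : ShOK L M) (p : α → Prop) [DecidablePred p] :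
    ShOK (2 * L) (Matrix.of fun i j => if p i then M i j else 0) := by
  have h1 := conj (a := 0) (IsMono.diagonal (d := fun i => if p i then (2 : ℂ) else 1)
    fun i => by split_ifs <;> norm_num) IsMono.one h
  have h2 := conj (a := 0) (IsMono.diagonal (d := fun _ : α => (-1 : ℂ))
    fun i => by norm_num) IsMono.one h
  have := h1.add h2
  convert this using 1
  · omega
  · ext i j
    simp only [Matrix.mul_one, Matrix.add_apply, Matrix.diagonal_mul, Matrix.of_apply]
    split_ifs <;> ring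

theorem mask_right {L : ℕ} {M : Matrix α β ℂ} (h : ShOK L M) (p : β → Prop) [DecidablePred p] :
    ShOK (2 * L) (Matrix.of fun i j => if p j then M i j else 0) := by
  have h1 := conj (a := 0) IsMono.one (IsMono.diagonal (d := fun i => if p i then (2 : ℂ) else 1)
    fun i => by split_ifs <;> norm_num) h
  have h2 := conj (a := 0) IsMono.one (IsMono.diagonal (d := fun _ : β => (-1 : ℂ))
    fun i => by norm_num) h
  have := h1.add h2
  convert this using 1
  · omega
  · ext i j
    simp only [Matrix.one_mul, Matrix.add_apply, Matrix.mul_diagonal, Matrix.of_apply]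
    split_ifs <;> ring

theorem extend {L : ℕ} {M : Matrix α β ℂ} (h : ShOK L M) (f : α → α') (g : β → β')
    (hf : Function.Injective f) (hg : Function.Injective g) {M' : Matrix α' β' ℂ}
    (h1 : ∀ i j, M' (f i) (g j) = M i j)
    (h2 : ∀ i j, i ∉ Set.range f ∨ j ∉ Set.range g → M' i j = 0) : ShOK L M' := by
  refine NF.extend h (Sum.map g f) (hg.sumMap hf) ?_ ?_
  · rintro (i | i) (j | j)
    · simp [Matrix.one_apply, hg.eq_iff]
    · simp
    · simpa using h1 i j
    · simp [Matrix.one_apply, hf.eq_iff]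
  · rintro (i | i) (j | j) h
    · simp [Matrix.one_apply]
    · simp
    · have : M' i j = 0 := by
        apply h2
        rcases h with h | h
        · exact Or.inl fun ⟨k, hk⟩ => h ⟨Sum.inr k, by simp [hk]⟩
        · exact Or.inr fun ⟨k, hk⟩ => h ⟨Sum.inl k, by simp [hk]⟩
      simpa using this
    · simp [Matrix.one_apply]

end ShOK

/-- Splitting `Fin p` into even and odd indices. -/
def evenOdd (p a b : ℕ) (ha : a = (p + 1) / 2) (hb : b = p / 2) : Fin a ⊕ Fin b ≃ Fin p where
  toFun := Sum.elim (fun i => ⟨2 * i, by omega⟩) (fun i => ⟨2 * i + 1, by omega⟩)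
  invFun k := if h : k.val % 2 = 0 then Sum.inl ⟨k / 2, by omega⟩ else Sum.inr ⟨k / 2, by omega⟩
  left_inv := by
    rintro (i | i)
    · simp
    · have : ¬ (2 * i.val + 1) % 2 = 0 := by omega
      simp only [Sum.elim_inr, this, dite_false, Sum.inr.injEq, Fin.ext_iff]
      omega
  right_inv k := by
    by_cases h : k.val % 2 = 0
    · simp only [h, dite_true, Sum.elim_inl, Fin.ext_iff]
      omega
    · simp only [h, dite_false, Sum.elim_inr, Fin.ext_iff]
      omega

@[simp] theorem evenOdd_inl {p a b : ℕ} (ha : a = (p + 1) / 2) (hb : b = p / 2) (i : Fin a) :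
    (evenOdd p a b ha hb (Sum.inl i) : ℕ) = 2 * i := rfl

@[simp] theorem evenOdd_inr {p a b : ℕ} (ha : a = (p + 1) / 2) (hb : b = p / 2) (i : Fin b) :
    (evenOdd p a b ha hb (Sum.inr i) : ℕ) = 2 * i + 1 := rfl

theorem butterfly_NF : NF 2 (Matrix.fromBlocks (1 : Matrix α α ℂ) (1 : Matrix α α ℂ)
    (1 : Matrix α α ℂ) (-1 : Matrix α α ℂ)) := by
  have h1 : ShOK 1 (1 : Matrix α α ℂ) := ShOK.diagonal (fun _ => 1)
  have h2 : IsMono (Matrix.fromBlocks (1 : Matrix α α ℂ) 0 0
      (Matrix.diagonal fun _ : α => (-2 : ℂ))) :=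
    IsMono.one.fromBlocks (IsMono.diagonal fun _ => by norm_num)
  have := (NF.mul_mono h1 h2).mul h1.upper
  convert this using 1
  simp only [Matrix.fromBlocks_multiply]
  congr 1 <;> simp
  ext i j
  by_cases h : i = j
  · subst h
    simp
    norm_num
  · simp [h]

theorem fft_NF (j : ℕ) : ∀ (n : ℕ) (ζ : ℂ), n = 2 ^ j → IsPrimitiveRoot ζ n →
    NF (2 * j) (dft n ζ) := by
  induction j with
  | zero =>
    rintro n ζ rfl -
    have : dft (2 ^ 0) ζ = 1 := by
      ext i k
      have hi : i.val = 0 := by omega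
      have hk : k.val = 0 := by omega
      have : i = k := Fin.ext (by omega)
      subst this
      rw [Matrix.one_apply_eq]
      simp [dft]
    rw [this]
    exact NF.one _
  | succ j ih =>
    intro n ζ hn hζ
    set m := 2 ^ j with hm
    have hm0 : 0 < m := by positivity
    have hn' : n = m + m := by rw [hn, pow_succ]; omega
    have h2 : IsPrimitiveRoot (ζ ^ 2) m := hζ.pow (by omega) (by omega)
    have hneg : ζ ^ m = -1 :=
      (hζ.pow (b := 2) (by omega) (by omega)).eq_neg_one_of_two_right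
    have hζ0 : ζ ≠ 0 := hζ.ne_zero (by omega)
    have hF := ih m (ζ ^ 2) rfl h2
    have hD : NF (2 * j) (Matrix.diagonal (fun i : Fin m => ζ ^ i.val) * dft m (ζ ^ 2)) :=
      NF.mono_mul (IsMono.diagonal fun _ => pow_ne_zero _ hζ0) hF
    have := (butterfly_NF (α := Fin m)).mul (hF.fromBlocks hD)
    refine NF.of_submatrix (finSumFinEquiv.trans (finCongr hn'.symm))
      (evenOdd n m m (by omega) (by omega)) ?_
    convert this using 1
    · omega
    have e1 : ∀ k : ℕ, ζ ^ (m * (2 * k)) = 1 := fun k => by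
      rw [pow_mul, hneg, pow_mul]
      simp
    ext (r | r) (k | k)
    · simp [Matrix.fromBlocks_multiply, dft, ← pow_mul]
      congr 1
      ring
    · simp [Matrix.fromBlocks_multiply, dft, ← pow_mul, ← pow_add]
      congr 1
      ring
    · simp [Matrix.fromBlocks_multiply, dft, ← pow_mul]
      rw [add_mul, pow_add, e1]
      simp
      congr 1
      ring
    · simp [Matrix.fromBlocks_multiply, dft, ← pow_mul, ← pow_add]
      rw [add_mul, pow_add, mul_add m, pow_add, e1, mul_one, hneg]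
      simp
      congr 1
      ring

theorem exists_interp {w : ℕ} {ζ : ℂ} (hζ : IsPrimitiveRoot ζ w) (hu : IsUnit (dft w ζ))
    (b : ℤ → ℂ) (κ : ℤ) : ∃ d : Fin w → ℂ, ∀ x : ℤ, κ ≤ x → x < κ + w →
      ∑ l : Fin w, d l * ζ ^ (x * l) = b x := by
  obtain ⟨d, hd⟩ := (Matrix.mulVec_surjective_iff_isUnit.2 hu) (fun u => b (κ + u))
  refine ⟨fun l => d l * ζ ^ (-κ * l), fun x h1 h2 => ?_⟩
  have hw : w ≠ 0 := by omega
  have hζ0 : ζ ≠ 0 := hζ.ne_zero hw
  have := congrFun hd ⟨(x - κ).toNat, by omega⟩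
  simp only [Matrix.mulVec, dotProduct, dft, Matrix.of_apply] at this
  rw [Int.toNat_of_nonneg (by omega), add_sub_cancel] at this
  rw [← this]
  refine Finset.sum_congr rfl fun l _ => ?_
  rw [mul_assoc, ← zpow_add₀ hζ0, mul_comm, ← zpow_natCast, Nat.cast_mul,
    Int.toNat_of_nonneg (by omega)]
  congr 2
  ring

theorem toeplitz_block {j w a b s : ℕ} (hw : w = 2 ^ j) (ha : w ≤ a) (hb : w ≤ b)
    (hs : 2 * s ≤ w + 1) (t : ℤ → ℂ) (i0 j0 : ℕ) :
    ShOK (4 * (4 * j + 1)) (Matrix.of fun (i : Fin a) (k : Fin b) =>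
      if j0 ≤ k.val ∧ k.val < j0 + s then
        (if i0 ≤ i.val ∧ i.val < i0 + s then t ((i : ℤ) - k) else 0) else 0) := by
  classical
  have hw0 : 0 < w := by rw [hw]; positivity
  set ζ := Complex.exp (2 * Real.pi * Complex.I / w)
  have hζ : IsPrimitiveRoot ζ w := Complex.isPrimitiveRoot_exp w hw0.ne'
  have hζ0 : ζ ≠ 0 := hζ.ne_zero hw0.ne'
  have hF := fft_NF j w ζ hw hζ
  have hG := fft_NF j w ζ⁻¹ hw hζ.inv
  set A := min i0 (a - w) with hA
  set B := min j0 (b - w) with hB
  obtain ⟨d, hd⟩ := exists_interp hζ hF.isUnit (fun x => t (x + A - B))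
    ((i0 : ℤ) - j0 - s + 1 - A + B)
  have h1 := ShOK.conj hF hG (ShOK.diagonal d)
  let H : ℤ → ℂ := fun x => ∑ l : Fin w, d l * ζ ^ (x * l)
  have h2 : ShOK (2 * j + 1 + 2 * j) (Matrix.of fun (i : Fin a) (k : Fin b) =>
      if (A ≤ i.val ∧ i.val < A + w) ∧ (B ≤ k.val ∧ k.val < B + w) then
        H ((i : ℤ) - k - A + B) else 0) := by
    refine h1.extend (fun u : Fin w => (⟨A + u, by omega⟩ : Fin a))
      (fun u : Fin w => (⟨B + u, by omega⟩ : Fin b)) ?_ ?_ ?_ ?_
    · intro u v h
      simpa [Fin.ext_iff] using h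
    · intro u v h
      simpa [Fin.ext_iff] using h
    · intro u v
      simp only [Matrix.of_apply]
      rw [if_pos (by omega), Matrix.mul_apply]
      refine Finset.sum_congr rfl fun l _ => ?_
      simp only [Matrix.mul_diagonal, dft, Matrix.of_apply]
      rw [mul_comm _ (d l), mul_assoc, inv_pow, ← zpow_natCast, ← zpow_natCast, ← _root_.zpow_neg,
        ← zpow_add₀ hζ0]
      congr 2
      push_cast
      ring
    · intro i k h
      simp only [Matrix.of_apply]
      rw [if_neg]
      rintro ⟨p, q⟩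
      rcases h with h | h
      · exact h ⟨⟨i - A, by omega⟩, Fin.ext (by simp; omega)⟩
      · exact h ⟨⟨k - B, by omega⟩, Fin.ext (by simp; omega)⟩
  have h3 := (h2.mask_left (fun i => i0 ≤ i.val ∧ i.val < i0 + s)).mask_right
    (fun k => j0 ≤ k.val ∧ k.val < j0 + s)
  convert h3 using 1
  · omega
  ext i k
  simp only [Matrix.of_apply]
  split_ifs with p q r
  · rw [show H ((i : ℤ) - k - A + B) = _ from hd _ (by omega) (by omega)]
    congr 1
    ring
  · exfalso
    apply r
    omega
  · rfl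
  · rfl

theorem toeplitz_shear {k a b : ℕ} (hk : a ≤ 2 ^ k) (hab : a ≤ b + 1) (hba : b ≤ a + 1)
    (t : ℤ → ℂ) :
    ShOK (64 * (4 * k + 1)) (Matrix.of fun (i : Fin a) (j : Fin b) => t ((i : ℤ) - j)) := by
  rcases Nat.eq_zero_or_pos (min a b) with h0 | h0
  · convert ShOK.zero (α := Fin a) (β := Fin b) _
    ext i j
    exfalso
    have := i.2
    have := j.2
    omega
  set j := Nat.log 2 (min a b) with hj
  have h1 : 2 ^ j ≤ min a b := Nat.pow_log_le_self 2 h0.ne'
  have h2 : min a b < 2 ^ (j + 1) := Nat.lt_pow_succ_log_self (by norm_num) _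
  have h3 : j ≤ k := (Nat.pow_le_pow_iff_right (by norm_num)).1 (h1.trans ((min_le_left _ _).trans hk))
  set w := 2 ^ j with hw
  rw [pow_succ] at h2
  set s := (w + 1) / 2 with hs
  have key := ShOK.sum (Finset.range 4 ×ˢ Finset.range 4) fun x : ℕ × ℕ =>
    toeplitz_block (a := a) (b := b) (s := s) hw (by omega) (by omega) (by omega) t
      (x.1 * s) (x.2 * s)
  have hs0 : 0 < s := by omega
  have aux : ∀ (n : ℕ) (y : ℂ), n < 4 * s →
      ∑ x ∈ Finset.range 4, (if x * s ≤ n ∧ n < x * s + s then y else 0) = y := by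
    intro n y hn
    simp only [Finset.sum_range_succ, Finset.range_zero, Finset.sum_empty]
    split_ifs <;> first | omega | simp
  refine ShOK.mono (L := 16 * (4 * (4 * j + 1))) ?_ (by omega)
  convert key using 1
  · simp
  ext i l
  rw [Matrix.sum_apply, Finset.sum_product]
  simp only [Matrix.of_apply]
  have hl : l.val < 4 * s := by omega
  have hi : i.val < 4 * s := by omega
  symm
  calc _ = ∑ x ∈ Finset.range 4, (if x * s ≤ i.val ∧ i.val < x * s + s then t ((i : ℤ) - l)
        else 0) := Finset.sum_congr rfl fun x _ => aux l _ hl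
    _ = _ := aux i _ hi

end Crest.Agent.R324
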