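import Mathlib
import Crest.Agent.R324.NFShear

/-! Triangular Toeplitz matrices and the Fourier matrix have short layered factorisations. -/

set_option autoImplicit false

namespace Crest.Agent.R324

open Matrix PowerSeries

/-- Truncated multiplication by a power series. -/
noncomputable def Toep (t : PowerSeries ℂ) (a b : ℕ) : Matrix (Fin a) (Fin b) ℂ :=
  Matrix.of fun i j => if j.val ≤ i.val then coeff (i.val - j.val) t else 0

theorem Toep_apply (t : PowerSeries ℂ) {a b : ℕ} (i : Fin a) (j : Fin b) :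
    Toep t a b i j = coeff i.val (t * X ^ j.val) := by
  rw [coeff_mul_X_pow']
  rfl

theorem Toep_mul (t s : PowerSeries ℂ) {a b c : ℕ} (h : a ≤ b) :
    Toep t a b * Toep s b c = Toep (t * s) a c := by
  ext i j
  rw [Matrix.mul_apply, Toep_apply (t * s), mul_assoc, mul_comm t, coeff_mul,
    Finset.Nat.sum_antidiagonal_eq_sum_range_succ_mk]
  simp only [Toep_apply s]
  simp only [Toep, Matrix.of_apply]
  rw [Fin.sum_univ_eq_sum_range (fun k => (if k ≤ i.val then coeff (i.val - k) t else 0) *
    coeff k (s * X ^ j.val)) b]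
  symm
  rw [← Finset.sum_subset (s₁ := Finset.range i.val.succ) (s₂ := Finset.range b)]
  · refine Finset.sum_congr rfl fun k hk => ?_
    rw [if_pos (by have := Finset.mem_range.1 hk; omega), mul_comm]
  · intro k hk
    have := Finset.mem_range.1 hk
    exact Finset.mem_range.2 (by omega)
  · intro k _ hk
    rw [if_neg (by rw [Finset.mem_range] at hk; omega), zero_mul]

theorem Toep_add (t s : PowerSeries ℂ) (a b : ℕ) :
    Toep t a b + Toep s a b = Toep (t + s) a b := by
  ext i j
  simp only [Matrix.add_apply, Toep_apply, add_mul, map_add]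

theorem Toep_shear {k a b : ℕ} (hk : a ≤ 2 ^ k) (hab : a ≤ b + 1) (hba : b ≤ a + 1)
    (t : PowerSeries ℂ) : ShOK (64 * (4 * k + 1)) (Toep t a b) := by
  have := toeplitz_shear hk hab hba (fun x => if 0 ≤ x then coeff x.toNat t else 0)
  convert this using 1
  ext i j
  simp only [Toep, Matrix.of_apply, sub_nonneg, Nat.cast_le]
  split_ifs with h
  · congr 2
    omega
  · rfl

theorem Toep_NF (k : ℕ) : ∀ (p : ℕ) (t : PowerSeries ℂ), p ≤ 2 ^ k → constantCoeff t ≠ 0 →
    NF (k * (128 * (4 * k + 1))) (Toep t p p) := by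
  induction k with
  | zero =>
    intro p t hp ht
    have : Toep t p p = Matrix.diagonal fun _ => constantCoeff t := by
      ext i j
      have : i = j := Fin.ext (by omega)
      subst this
      simp [Toep]
    rw [this]
    exact (NF.of_mono (IsMono.diagonal fun _ => ht)).mono (Nat.zero_le _)
  | succ k ih =>
    intro p t hp ht
    set a := (p + 1) / 2 with ha
    set b := p / 2 with hb
    rw [pow_succ] at hp
    set e : PowerSeries ℂ := PowerSeries.mk fun n => coeff (2 * n) t with he
    set o : PowerSeries ℂ := PowerSeries.mk fun n => coeff (2 * n + 1) t with ho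
    have he0 : constantCoeff e ≠ 0 := by
      rw [he, ← coeff_zero_eq_constantCoeff_apply, coeff_mk]
      simpa using ht
    have hinv : e * e⁻¹ = 1 := PowerSeries.mul_inv_cancel e he0
    have h1 := Toep_shear (k := k) (a := b) (b := a) (by omega) (by omega) (by omega) (o * e⁻¹)
    have h2 := (ih a e (by omega) he0).fromBlocks (ih b (e - X * o ^ 2 * e⁻¹) (by omega)
      (by simpa using he0))
    have h3 := (Toep_shear (k := k) (a := a) (b := b) (by omega) (by omega) (by omega)
      (X * o * e⁻¹)).upper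
    have := (NF.mul h1 (h2.mul h3)).mono
      (L' := (k + 1) * (128 * (4 * (k + 1) + 1))) (by nlinarith)
    refine NF.of_submatrix (evenOdd p a b ha hb) (evenOdd p a b ha hb) ?_
    convert this using 1
    simp only [Matrix.fromBlocks_multiply, Matrix.mul_one, Matrix.one_mul, Matrix.mul_zero,
      Matrix.zero_mul, add_zero, zero_add]
    rw [Toep_mul _ _ le_rfl, Toep_mul _ _ (by omega), Toep_mul _ _ (by omega), Toep_add]
    have e1 : e * (X * o * e⁻¹) = X * o := by linear_combination (X * o) * hinv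
    have e2 : o * e⁻¹ * e = o := by linear_combination o * hinv
    have e3 : o * e⁻¹ * (X * o) + (e - X * o ^ 2 * e⁻¹) = e := by ring
    rw [e1, e2, e3]
    ext (i | i) (j | j)
    · simp only [Toep, Matrix.submatrix_apply, Matrix.of_apply, evenOdd_inl,
        Matrix.fromBlocks_apply₁₁, he, coeff_mk]
      split_ifs <;> first | omega | rfl | (congr 2; omega)
    · simp only [Toep, Matrix.submatrix_apply, Matrix.of_apply, evenOdd_inl, evenOdd_inr,
        Matrix.fromBlocks_apply₁₂]
      split_ifs with h h'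
      · rw [show i.val - j.val = (i.val - j.val - 1) + 1 by omega, coeff_succ_X_mul, ho, coeff_mk]
        congr 2
        omega
      · omega
      · rw [show i.val - j.val = 0 by omega]
        simp
      · rfl
    · simp only [Toep, Matrix.submatrix_apply, Matrix.of_apply, evenOdd_inl, evenOdd_inr,
        Matrix.fromBlocks_apply₂₁, ho, coeff_mk]
      split_ifs <;> first | omega | rfl | (congr 2; omega)
    · simp only [Toep, Matrix.submatrix_apply, Matrix.of_apply, evenOdd_inr,
        Matrix.fromBlocks_apply₂₂, he, coeff_mk]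
      split_ifs <;> first | omega | rfl | (congr 2; omega)

/-- The `q`-factorial. -/
noncomputable def qfac (z : ℂ) (n : ℕ) : ℂ := ∏ i ∈ Finset.range n, (z ^ (i + 1) - 1)

/-- Gaussian binomial coefficients. -/
noncomputable def gauss (z : ℂ) : ℕ → ℕ → ℂ
  | _, 0 => 1
  | 0, _ + 1 => 0
  | k + 1, l + 1 => gauss z k l + z ^ (l + 1) * gauss z k (l + 1)

theorem gauss_zero (z : ℂ) (k : ℕ) : gauss z k 0 = 1 := by cases k <;> rfl

theorem gauss_eq_zero (z : ℂ) : ∀ k l, k < l → gauss z k l = 0
  | _, 0, h => by omega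
  | 0, _ + 1, _ => rfl
  | k + 1, l + 1, h => by
    rw [gauss, gauss_eq_zero z k l (by omega), gauss_eq_zero z k (l + 1) (by omega)]
    simp

theorem qfac_succ (z : ℂ) (n : ℕ) : qfac z (n + 1) = qfac z n * (z ^ (n + 1) - 1) :=
  Finset.prod_range_succ _ _

theorem gauss_mul (z : ℂ) : ∀ l m, gauss z (l + m) l * qfac z l * qfac z m = qfac z (l + m)
  | 0, m => by simp [gauss_zero, qfac]
  | l + 1, 0 => by
    have := gauss_mul z l 0
    rw [add_zero] at this ⊢
    rw [gauss, gauss_eq_zero z l (l + 1) (by omega), qfac_succ]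
    linear_combination (z ^ (l + 1) - 1) * this
  | l + 1, m + 1 => by
    have h1 := gauss_mul z l (m + 1)
    have h2 := gauss_mul z (l + 1) m
    rw [show l + 1 + m = l + (m + 1) by ring] at h2
    rw [show l + 1 + (m + 1) = (l + (m + 1)) + 1 by ring, gauss, qfac_succ z (l + (m + 1))]
    rw [qfac_succ z m] at h1 ⊢
    rw [qfac_succ z l] at h2 ⊢
    linear_combination (z ^ (l + 1) - 1) * h1 + z ^ (l + 1) * (z ^ (m + 1) - 1) * h2

/-- Newton basis at the nodes `z ^ i`. -/
noncomputable def newton (z x : ℂ) (l : ℕ) : ℂ := ∏ i ∈ Finset.range l, (x - z ^ i)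

theorem pow_eq_sum_newton (z x : ℂ) (k : ℕ) :
    x ^ k = ∑ l ∈ Finset.range (k + 1), newton z x l * gauss z k l := by
  induction k with
  | zero => simp [newton, gauss]
  | succ k ih =>
    have h1 : ∀ l, x * newton z x l = newton z x (l + 1) + z ^ l * newton z x l := by
      intro l
      rw [newton, newton, Finset.prod_range_succ]
      ring
    rw [pow_succ', ih, Finset.mul_sum, Finset.sum_range_succ' _ (k + 1)]
    simp only [gauss, mul_add, Finset.sum_add_distrib, ← mul_assoc, h1, add_mul]
    rw [add_assoc]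
    congr 1
    rw [Finset.sum_range_succ' _ k, Finset.sum_range_succ _ k, gauss_eq_zero z k (k + 1) (by omega),
      gauss_zero]
    simp only [mul_zero, add_zero, pow_zero, one_mul]
    congr 1
    refine Finset.sum_congr rfl fun l _ => ?_
    ring

theorem newton_eq_zero (z : ℂ) {j l : ℕ} (h : j < l) : newton z (z ^ j) l = 0 :=
  Finset.prod_eq_zero (Finset.mem_range.2 h) (sub_self _)

theorem newton_mul (z : ℂ) (l : ℕ) : ∀ m,
    newton z (z ^ (l + m)) l * qfac z m = z ^ (l.choose 2) * qfac z (l + m) := by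
  induction l with
  | zero => intro m; simp [newton]
  | succ l ih =>
    intro m
    have h := ih (m + 1)
    rw [show l + (m + 1) = l + 1 + m by ring, qfac_succ] at h
    rw [newton, Finset.prod_range_succ, Nat.choose_succ_succ' l 1, Nat.choose_one_right,
      pow_add z l (l.choose 2)]
    rw [newton] at h
    linear_combination z ^ l * h

theorem qfac_ne_zero {s : ℕ} {ζ : ℂ} (hζ : IsPrimitiveRoot ζ s) {n : ℕ} (hn : n < s) :
    qfac ζ n ≠ 0 := by
  refine Finset.prod_ne_zero_iff.2 fun i hi => sub_ne_zero.2 ?_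
  have := Finset.mem_range.1 hi
  exact hζ.pow_ne_one_of_pos_of_lt (by omega) (by omega)

theorem dft_factor {s : ℕ} {ζ : ℂ} (hζ : IsPrimitiveRoot ζ s) :
    dft s ζ = (Matrix.diagonal (fun j : Fin s => qfac ζ j) *
      Toep (PowerSeries.mk fun n => (qfac ζ n)⁻¹) s s *
      Matrix.diagonal (fun l : Fin s => ζ ^ (l.val.choose 2) / qfac ζ l)) *
      ((Toep (PowerSeries.mk fun n => (qfac ζ n)⁻¹) s s)ᵀ *
        Matrix.diagonal (fun j : Fin s => qfac ζ j)) := by
  ext j k
  rw [Matrix.mul_apply]
  simp only [Matrix.mul_diagonal, Matrix.diagonal_mul, Matrix.transpose_apply, Toep,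
    Matrix.of_apply, coeff_mk, dft]
  rw [pow_mul, pow_eq_sum_newton ζ (ζ ^ j.val) k,
    Finset.sum_subset (s₂ := Finset.range s) (fun l hl => by
      rw [Finset.mem_range] at hl ⊢
      omega) (fun l _ hl => by
      rw [gauss_eq_zero _ _ _ (by rw [Finset.mem_range] at hl; omega), mul_zero]),
    ← Fin.sum_univ_eq_sum_range (fun l => newton ζ (ζ ^ j.val) l * gauss ζ k l) s]
  refine Finset.sum_congr rfl fun l _ => ?_
  split_ifs with h1 h2
  · have e1 := newton_mul ζ l (j - l)
    have e2 := gauss_mul ζ l (k - l)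
    rw [Nat.add_sub_cancel' h1] at e1
    rw [Nat.add_sub_cancel' h2] at e2
    have n1 := qfac_ne_zero hζ (n := j - l) (by omega)
    have n2 := qfac_ne_zero hζ (n := k - l) (by omega)
    have n3 := qfac_ne_zero hζ l.2
    rw [← e2, (eq_mul_inv_iff_mul_eq₀ n1).2 e1]
    field_simp
  · rw [gauss_eq_zero _ _ _ (by omega)]
    simp
  · rw [newton_eq_zero _ (by omega)]
    simp
  · rw [newton_eq_zero _ (by omega)]
    simp

theorem dft_NF : ∃ c : ℕ, ∀ (s : ℕ) (ζ : ℂ), IsPrimitiveRoot ζ s →
    NF (c * (Nat.log 2 s + 1) ^ 2) (dft s ζ) := by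
  refine ⟨1280, fun s ζ hζ => ?_⟩
  rcases Nat.eq_zero_or_pos s with rfl | hs
  · rw [Subsingleton.elim (dft 0 ζ) 1]
    exact NF.one _
  have hζ0 : ζ ≠ 0 := hζ.ne_zero hs.ne'
  have hT := Toep_NF (Nat.log 2 s + 1) s (PowerSeries.mk fun n => (qfac ζ n)⁻¹)
    (Nat.lt_pow_succ_log_self (by norm_num) s).le (by
      rw [← coeff_zero_eq_constantCoeff_apply, coeff_mk]
      simp [qfac])
  have hD : IsMono (Matrix.diagonal (fun j : Fin s => qfac ζ j)) :=
    IsMono.diagonal fun j => qfac_ne_zero hζ j.2
  have hD' : IsMono (Matrix.diagonal (fun l : Fin s => ζ ^ (l.val.choose 2) / qfac ζ l)) :=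
    IsMono.diagonal fun l => div_ne_zero (pow_ne_zero _ hζ0) (qfac_ne_zero hζ l.2)
  rw [dft_factor hζ]
  refine (((NF.mono_mul hD hT).mul_mono hD').mul (hT.transpose.mul_mono hD)).mono ?_
  nlinarith

end Crest.Agent.R324
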