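import Crest.Agent.R324.Frame

/-! Labelled networks: arrays carry a frame label and a virtual content. -/

namespace Crest.Agent.R324

open Set
open scoped Kronecker

/-- Labels. -/
abbrev Lab (ι : Type*) := Matrix ι ι (ZMod 2)

section LenLemmas

variable {ι ι' : Type*}

lemma Len.mono {M : Lab ι} {r : ℕ} (h : Len M r) : ∀ {r' : ℕ}, r ≤ r' → Len M r' := by
  induction h with
  | zero r => intro r' _; exact Len.zero r'
  | step u _ ih =>
    intro r' hr
    obtain ⟨r'', rfl⟩ : ∃ r'', r' = r'' + 1 := ⟨r' - 1, by omega⟩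
    exact Len.step u (ih (by omega))

lemma Len.add {M N : Lab ι} {r r' : ℕ} (h : Len M r) (h' : Len N r') : Len (M + N) (r + r') := by
  induction h' with
  | zero r' => simpa using h.mono (Nat.le_add_right _ _)
  | step u _ ih => simpa [add_assoc] using Len.step u ih

lemma Len.rank_one (u : ι → ZMod 2) : Len (Matrix.vecMulVec u u) 1 := by
  simpa using Len.step u (Len.zero 0)

lemma Len.of_eq {M N : Lab ι} {r : ℕ} (h : Len M r) (e : N = M) : Len N r := e ▸ h

lemma Len.neg {M : Lab ι} {r : ℕ} (h : Len M r) : Len (-M) r := by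
  refine h.of_eq ?_
  ext a b
  simp only [Matrix.neg_apply]
  generalize M a b = z
  revert z; decide

lemma Len.sum {J : Type*} (s : Finset J) (u : J → ι → ZMod 2) :
    Len (∑ j ∈ s, Matrix.vecMulVec (u j) (u j)) s.card := by
  classical
  induction s using Finset.induction_on with
  | empty => simpa using Len.zero 0
  | insert a s ha ih =>
    rw [Finset.sum_insert ha, Finset.card_insert_of_notMem ha, add_comm]
    exact Len.step _ ih

lemma Len.kron {M : Lab ι} {N : Lab ι'} {r r' : ℕ} (h : Len M r) (h' : Len N r') :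
    Len (M ⊗ₖ N) (r * r') := by
  induction h with
  | zero r => simpa using Len.zero _
  | @step M r u _ ih =>
    rw [Matrix.add_kronecker, add_mul, one_mul]
    refine ih.add ?_
    clear ih
    induction h' with
    | zero r => simpa using Len.zero _
    | @step N r' w _ ih' =>
      rw [Matrix.kronecker_add]
      refine (Len.step (fun p : ι × ι' => u p.1 * w p.2) ih').of_eq ?_
      congr 1
      ext ⟨a, b⟩ ⟨a', b'⟩
      simp only [Matrix.kroneckerMap_apply, Matrix.vecMulVec_apply]
      ring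

variable [Fintype ι] [DecidableEq ι]

lemma Len.of_orth (Q : Lab ι) (hQ : Q * Q.transpose = 1) (s : Finset ι) :
    Len (1 - ∑ j ∈ s, Matrix.vecMulVec (fun i => Q i j) (fun i => Q i j))
      (Fintype.card ι - s.card) := by
  have := Len.sum sᶜ (fun j i => Q i j)
  rw [Finset.card_compl] at this
  refine this.of_eq ?_
  rw [sub_eq_iff_eq_add', Finset.sum_add_sum_compl, ← hQ]
  ext a b
  simp [Matrix.mul_apply, Matrix.sum_apply, Matrix.vecMulVec_apply]

lemma Len.one : Len (1 : Lab ι) (Fintype.card ι) := by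
  simpa using Len.of_orth (1 : Lab ι) (by simp) ∅

lemma transvection_orth (a : ι → ZMod 2) (ha : a ⬝ᵥ a = 0) :
    (1 + Matrix.vecMulVec a a) * (1 + Matrix.vecMulVec a a).transpose = 1 := by
  have h2 : ∀ z : ZMod 2, z + z = 0 := by decide
  rw [Matrix.transpose_add, Matrix.transpose_one, Matrix.transpose_vecMulVec, add_mul, mul_add,
    mul_add, Matrix.vecMulVec_mul_vecMulVec, ha]
  ext i j
  simp only [one_mul, mul_one, Matrix.add_apply, Matrix.vecMulVec_apply, zero_smul,
    Pi.zero_apply, mul_zero, add_zero]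
  linear_combination h2 (a i * a j)

lemma Len.compl_one (t : ι → ZMod 2) (ht : t ⬝ᵥ t = 1) (l : ι) (hl : t l = 0) :
    Len (1 - Matrix.vecMulVec t t) (Fintype.card ι - 1) := by
  have h2 : ∀ z : ZMod 2, z + z = 0 := by decide
  set a : ι → ZMod 2 := t + Pi.single l 1 with ha
  have haa : a ⬝ᵥ a = 0 := by
    simp [ha, add_dotProduct, dotProduct_add, ht, hl, h2]
  have := Len.of_orth _ (transvection_orth a haa) {l}
  simp only [Finset.sum_singleton, Finset.card_singleton] at this
  have e : (fun i => (1 + Matrix.vecMulVec a a : Lab ι) i l) = t := by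
    funext i
    by_cases hi : i = l
    · subst hi
      simp [ha, Matrix.vecMulVec_apply, hl, h2]
    · simp [ha, Matrix.vecMulVec_apply, hl, hi, Matrix.one_apply]
  rwa [e] at this

lemma Len.compl_two (s t : ι → ZMod 2) (hs : s ⬝ᵥ s = 1) (ht : t ⬝ᵥ t = 1) (hst : s ⬝ᵥ t = 0)
    (l l' : ι) (hsl : s l = 0) (htl : t l = 0) (htl' : t l' = 0) (hll : l ≠ l') :
    Len (1 - Matrix.vecMulVec s s - Matrix.vecMulVec t t) (Fintype.card ι - 2) := by
  have h2 : ∀ z : ZMod 2, z + z = 0 := by decide
  set a : ι → ZMod 2 := s + Pi.single l 1 with ha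
  set b : ι → ZMod 2 := t + Pi.single l' 1 with hb
  have haa : a ⬝ᵥ a = 0 := by
    simp [ha, add_dotProduct, dotProduct_add, hs, hsl, h2]
  have hbb : b ⬝ᵥ b = 0 := by
    simp [hb, add_dotProduct, dotProduct_add, ht, htl', h2]
  set A : Lab ι := 1 + Matrix.vecMulVec a a with hA
  set B : Lab ι := 1 + Matrix.vecMulVec b b with hB
  have hAB : (A * B) * (A * B).transpose = 1 := by
    rw [Matrix.transpose_mul, mul_assoc, ← mul_assoc B, transvection_orth b hbb, one_mul,
      transvection_orth a haa]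
  have := Len.of_orth _ hAB {l, l'}
  rw [Finset.sum_pair hll, Finset.card_pair hll] at this
  have col : ∀ j, (fun i => (A * B) i j) = A.mulVec (fun i => B i j) := fun j => rfl
  have hAv : ∀ x : ι → ZMod 2, A.mulVec x = x + (a ⬝ᵥ x) • a := by
    intro x
    rw [hA, Matrix.add_mulVec, Matrix.one_mulVec, Matrix.vecMulVec_mulVec]
    simp
  have e1 : (fun i => B i l) = Pi.single l 1 := by
    funext i
    simp [hB, hb, Matrix.vecMulVec_apply, htl, hll, Matrix.one_apply, Pi.single_apply]
  have e2 : (fun i => B i l') = t := by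
    funext i
    by_cases hi : i = l'
    · subst hi
      simp [hB, hb, Matrix.vecMulVec_apply, htl', h2]
    · simp [hB, hb, Matrix.vecMulVec_apply, htl', hi, Matrix.one_apply]
  have e3 : A.mulVec (Pi.single l 1) = s := by
    rw [hAv]
    funext i
    simp only [ha, add_dotProduct, dotProduct_single, hsl, Pi.single_eq_same, mul_one, zero_add,
      one_smul, Pi.add_apply]
    linear_combination h2 ((Pi.single l 1 : ι → ZMod 2) i)
  have e4 : A.mulVec t = t := by
    rw [hAv]
    simp [ha, add_dotProduct, hst, htl]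
  rw [col, col, e1, e2, e3, e4] at this
  exact this.of_eq (by abel)

end LenLemmas

section Net

variable {ι : Type} [Fintype ι] [DecidableEq ι] {U : Type} [AddCommGroup U] [Module ℂ U]

/-- The actual values held by a set of labelled virtual contents. -/
def realise {k : ℕ} {V : Type} [AddCommGroup V] [Module ℂ V]
    (ψ : U →ₗ[ℂ] ((Fin k × ι → ZMod 2) → V)) (S : Set (Lab ι × U)) : Set V :=
  ⋃ p ∈ S, range (app (frame (Fin k) p.1) (ψ p.2))

/-- `Net S r T`: from `S` one reaches `T` with `r` rank-one operations and boundedly many scalar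
operations per entry. -/
def Net (S : Set (Lab ι × U)) (r : ℕ) (T : Set (Lab ι × U)) : Prop :=
  ∃ s : ℕ, ∀ (k : ℕ) (V : Type) [AddCommGroup V] [Module ℂ V]
    (ψ : U →ₗ[ℂ] ((Fin k × ι → ZMod 2) → V)),
    Comp (realise ψ S) (r * gam (Fin k) ι + s * 2 ^ (k * Fintype.card ι)) (realise ψ T)

lemma realise_mono {k : ℕ} {V : Type} [AddCommGroup V] [Module ℂ V]
    (ψ : U →ₗ[ℂ] ((Fin k × ι → ZMod 2) → V)) {S T : Set (Lab ι × U)} (h : S ⊆ T) :
    realise ψ S ⊆ realise ψ T := biUnion_subset_biUnion_left h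

lemma Net.done {S T : Set (Lab ι × U)} (h : T ⊆ S) : Net S 0 T :=
  ⟨0, fun _ _ _ _ ψ => Comp.done ((realise_mono ψ h).trans (subset_insert _ _))⟩

lemma Net.trans {S T W : Set (Lab ι × U)} {r r' : ℕ} (h : Net S r T) (h' : Net T r' W) :
    Net S (r + r') W := by
  obtain ⟨s, hs⟩ := h
  obtain ⟨s', hs'⟩ := h'
  refine ⟨s + s', fun k V _ _ ψ => ((hs k V ψ).trans (hs' k V ψ)).mono_cost (le_of_eq ?_)⟩
  ring

lemma Net.keep {S T : Set (Lab ι × U)} {r : ℕ} (h : Net S r T) : Net S r (S ∪ T) := by
  obtain ⟨s, hs⟩ := h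
  refine ⟨s, fun k V _ _ ψ => (hs k V ψ).keep.mono_right' ?_⟩
  simp only [realise, biUnion_union, subset_refl]

lemma Net.mono_cost {S T : Set (Lab ι × U)} {r r' : ℕ} (h : Net S r T) (hr : r ≤ r') :
    Net S r' T := by
  obtain ⟨s, hs⟩ := h
  exact ⟨s, fun k V _ _ ψ => (hs k V ψ).mono_cost (by gcongr)⟩

lemma Net.iUnion {S : Set (Lab ι × U)} {J : Type*} [Fintype J] (T : J → Set (Lab ι × U)) (r : ℕ)
    (h : ∀ j, Net S r (T j)) : Net S (Fintype.card J * r) (⋃ j, T j) := by
  choose s hs using h
  refine ⟨∑ j, s j, fun k V _ _ ψ => ?_⟩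
  have := Comp.iUnion _ _ fun j => hs j k V ψ
  refine (this.mono_cost (le_of_eq ?_)).mono_right' ?_
  · simp [Finset.sum_add_distrib, Finset.sum_mul, mul_assoc]
  · simp only [realise, biUnion_iUnion, subset_refl]

/-- The content `a` is a linear combination of contents held at the label `l`. -/
def Has (S : Set (Lab ι × U)) (l : Lab ι) : Submodule ℂ U :=
  Submodule.span ℂ {a | (l, a) ∈ S}

omit [Fintype ι] [DecidableEq ι] in
lemma Has.of_mem {S : Set (Lab ι × U)} {l : Lab ι} {a : U} (h : (l, a) ∈ S) : a ∈ Has S l :=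
  Submodule.subset_span h

omit [Fintype ι] [DecidableEq ι] in
lemma Has.left {S T : Set (Lab ι × U)} {l : Lab ι} {a : U} (h : a ∈ Has S l) :
    a ∈ Has (S ∪ T) l :=
  Submodule.span_mono (fun _ hx => Or.inl hx) h

omit [Fintype ι] [DecidableEq ι] in
lemma Has.new {S : Set (Lab ι × U)} {J : Type*} (l : J → Lab ι) (a : J → U) (j : J) :
    a j ∈ Has (S ∪ range fun j => (l j, a j)) (l j) :=
  Has.of_mem (Or.inr ⟨j, rfl⟩)

lemma Net.has {S : Set (Lab ι × U)} {l : Lab ι} {a : U} (h : a ∈ Has S l) :
    Net S 0 {(l, a)} := by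
  obtain ⟨n, c, g, rfl⟩ := Submodule.mem_span_set'.1 h
  refine ⟨2 * n, fun k V _ _ ψ => ?_⟩
  have := Comp.range (S := realise ψ S) (app (frame (Fin k) l) (ψ (∑ i, c i • (g i : U))))
    (2 * n) fun x => by
      have e : app (frame (Fin k) l) (ψ (∑ i, c i • (g i : U))) x =
          ∑ i, c i • app (frame (Fin k) l) (ψ (g i)) x := by
        simp only [app, map_sum, map_smul, Finset.sum_apply, Pi.smul_apply, Finset.smul_sum]
        rw [Finset.sum_comm]
        exact Finset.sum_congr rfl fun i _ => Finset.sum_congr rfl fun y _ => smul_comm _ _ _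
      rw [e]
      have := Comp.sum (S := realise ψ S) Finset.univ c
        (fun i => app (frame (Fin k) l) (ψ (g i)) x) fun i _ =>
          Or.inr (mem_biUnion (g i).2 ⟨x, rfl⟩)
      simpa using this
  refine (this.mono_cost (le_of_eq ?_)).mono_right' ?_
  · simp [mul_comm]
  · simp [realise]

lemma Net.move {l l' : Lab ι} {r : ℕ} (h : Len (l' - l) r) (a : U) :
    Net {(l, a)} r {(l', a)} := by
  refine ⟨0, fun k V _ _ ψ => ?_⟩
  simpa [realise] using comp_move (κ := Fin k) h (ψ a)

/-- A family of contents is formed at labels `l j` and moved to labels `l' j`. -/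
lemma Net.step {S T : Set (Lab ι × U)} {J : Type*} [Fintype J] (l l' : J → Lab ι) (a : J → U)
    (r : ℕ) {r' : ℕ} (ha : ∀ j, a j ∈ Has S (l j)) (hl : ∀ j, Len (l' j - l j) r)
    (h : Net (S ∪ range fun j => (l' j, a j)) r' T) : Net S (Fintype.card J * r + r') T := by
  have := Net.iUnion (S := S) (fun j => {(l' j, a j)}) r fun j => by
    simpa using (Net.has (ha j)).trans (Net.move (hl j) (a j))
  rw [iUnion_singleton_eq_range] at this
  exact this.keep.trans h

/-- A family of contents is formed at labels `l j`. -/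
lemma Net.form {S T : Set (Lab ι × U)} {J : Type*} [Fintype J] (l : J → Lab ι) (a : J → U)
    {r' : ℕ} (ha : ∀ j, a j ∈ Has S (l j))
    (h : Net (S ∪ range fun j => (l j, a j)) r' T) : Net S r' T := by
  simpa using Net.step l l a 0 ha (fun j => by simpa using Len.zero 0) h

end Net

end Crest.Agent.R324
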