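import Crest.Agent.R324.Swap

/-! The concrete design, the recurrence and the cost of tensor powers. -/

namespace Crest.Agent.R324

open Set
open scoped Kronecker

section Concrete

variable {b : ℕ}

/-- Indicator vector of a transversal triple. -/
def tv (S : Fin 3 → Fin b) : Fin 3 × Fin b → ZMod 2 := fun p => if S p.1 = p.2 then 1 else 0

lemma tv_dot (S T : Fin 3 → Fin b) : tv S ⬝ᵥ tv T = ∑ j, if S j = T j then 1 else 0 := by
  simp only [dotProduct, tv, Fintype.sum_prod_type, ite_mul, one_mul, zero_mul,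
    Finset.sum_ite_eq, Finset.mem_univ, if_true]
  simp only [eq_comm]

lemma tv_self (S : Fin 3 → Fin b) : tv S ⬝ᵥ tv S = 1 := by
  rw [tv_dot]; simp only [if_true, Fin.sum_univ_three]; decide

lemma exists_ne_ne (hb : 3 ≤ b) (x y : Fin b) : ∃ z : Fin b, x ≠ z ∧ y ≠ z := by
  by_contra h
  push Not at h
  have h0 := h ⟨0, by omega⟩
  have h1 := h ⟨1, by omega⟩
  have h2 := h ⟨2, by omega⟩
  simp only [ne_eq, Fin.ext_iff] at h0 h1 h2
  omega

/-- Half of the number of agreements minus one. -/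
noncomputable def kk (S T : Fin 3 → Fin b) : ℂ := ((∑ j, if S j = T j then 1 else 0) - 1) / 2

/-- Orthogonal pairs. -/
abbrev OP (b : ℕ) := {p : (Fin 3 → Fin b) × (Fin 3 → Fin b) // tv p.1 ⬝ᵥ tv p.2 = 0}

lemma kk_eq (S T : Fin 3 → Fin b) :
    kk S T = (if T = S then 1 else 0) + if tv S ⬝ᵥ tv T = 0 then kk S T else 0 := by
  have hf : T = S ↔ S 0 = T 0 ∧ S 1 = T 1 ∧ S 2 = T 2 := by
    constructor
    · rintro rfl; simp
    · rintro ⟨h0, h1, h2⟩
      funext j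
      fin_cases j
      · exact h0.symm
      · exact h1.symm
      · exact h2.symm
  have e1 : (1 + 1 + 1 : ZMod 2) ≠ 0 := by decide
  have e2 : (1 + 1 : ZMod 2) = 0 := by decide
  simp only [tv_dot, kk, Fin.sum_univ_three, hf]
  by_cases h0 : S 0 = T 0 <;> by_cases h1 : S 1 = T 1 <;> by_cases h2 : S 2 = T 2 <;>
    simp [h0, h1, h2, e1, e2]

/-- The design on transversal triples. -/
noncomputable def design (g : ℕ) (hb : 3 ≤ b) (hg : 3 * b = g + 2) :
    Design (Fin 3 → Fin b) (Fin 3 × Fin b) (OP b) g where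
  P S := Matrix.vecMulVec (tv S) (tv S)
  src p := p.1.2
  tgt p := p.1.1
  E p := kk p.1.1 p.1.2
  G j T := if T j.1 = j.2 then 1 else 0
  R S j := (if S j.1 = j.2 then 1 else 0) / 2 - 1 / 6
  card := by simp [hg]
  hP S := Len.rank_one _
  hQ S := by
    obtain ⟨z, hz, -⟩ := exists_ne_ne hb (S 0) (S 0)
    have := Len.compl_one (tv S) (tv_self S) (0, z) (by simp [tv, hz])
    simpa [hg] using this
  hPQ p := by
    obtain ⟨z, hz, hz'⟩ := exists_ne_ne hb (p.1.1 0) (p.1.2 0)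
    obtain ⟨z', hw, -⟩ := exists_ne_ne hb (p.1.2 1) (p.1.2 1)
    have := Len.compl_two (tv p.1.1) (tv p.1.2) (tv_self _) (tv_self _) p.2 (0, z) (1, z')
      (by simp [tv, hz]) (by simp [tv, hz']) (by simp [tv, hw]) (by simp)
    simpa [hg] using this
  key S T := by
    have e1 : ∑ j : Fin 3 × Fin b, (((if S j.1 = j.2 then 1 else 0) / 2 - 1 / 6 : ℂ) *
        if T j.1 = j.2 then 1 else 0) = kk S T := by
      simp only [Fintype.sum_prod_type, mul_ite, mul_one, mul_zero, Finset.sum_ite_eq,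
        Finset.mem_univ, if_true, kk, Fin.sum_univ_three]
      ring
    have e2 : ∑ p : OP b, (if p.1.1 = S ∧ p.1.2 = T then kk p.1.1 p.1.2 else 0) =
        if tv S ⬝ᵥ tv T = 0 then kk S T else 0 := by
      split_ifs with h
      · rw [Finset.sum_eq_single (⟨(S, T), h⟩ : OP b)]
        · simp
        · rintro ⟨⟨S', T'⟩, h'⟩ _ hne
          rw [if_neg]
          rintro ⟨rfl, rfl⟩
          exact hne rfl
        · simp
      · refine Finset.sum_eq_zero ?_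
        rintro ⟨⟨S', T'⟩, h'⟩ _
        rw [if_neg]
        rintro ⟨rfl, rfl⟩
        exact h h'
    rw [e1, e2]
    exact kk_eq S T

end Concrete

lemma Net.cost_le {ι W : Type} [Fintype ι] [DecidableEq ι] [Fintype W] [DecidableEq W]
    (inL : W → Lab ι) (hs : ∀ w, (inL w).IsSymm) {r : ℕ} {T : Set (Lab ι × (W → ℂ))}
    (h : Net (range fun w => (inL w, (Pi.single w 1 : W → ℂ))) r T)
    (hT : ∀ w, (inL w + 1, (Pi.single w 1 : W → ℂ)) ∈ T) :
    ∃ s : ℕ, ∀ k : ℕ, cost ((1 : Matrix W W ℂ) ⊗ₖ CT (Fin k × ι)) ≤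
      r * gam (Fin k) ι + s * 2 ^ (k * Fintype.card ι) := by
  obtain ⟨s, hs'⟩ := h
  refine ⟨s, fun k => ?_⟩
  apply R324.cost_le
  set X : W × (Fin k × ι → ZMod 2) → (W × (Fin k × ι → ZMod 2) → ℂ) := fun a => Pi.single a 1
  let ψ := Fintype.linearCombination ℂ (fun w : W => app (unframe (inL w)) fun x => X (w, x))
  have hψ : ∀ w, ψ (Pi.single w 1) = app (unframe (inL w)) fun x => X (w, x) := by
    intro w
    simp [ψ, Fintype.linearCombination_apply, Pi.single_apply]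
  refine ((hs' k _ ψ).mono_left' ?_).mono_right' ?_
  · intro v hv
    simp only [realise, mem_iUnion] at hv
    obtain ⟨_, ⟨w, rfl⟩, x, rfl⟩ := hv
    rw [hψ, ← app_mul, frame_unframe (hs w), app_one]
    exact ⟨_, rfl⟩
  · rintro _ ⟨⟨w, x⟩, rfl⟩
    rw [app_one_kron]
    refine mem_biUnion (hT w) ?_
    simp only [hψ]
    exact range_frame_succ (hs w) _ ⟨x, rfl⟩

lemma Design.cost_wires {σ H Pr : Type} [Fintype σ] [DecidableEq σ] [Fintype H] [DecidableEq H]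
    [Fintype Pr] [DecidableEq Pr] {g : ℕ} (D : Design σ H Pr g) :
    ∃ (W : Type) (_ : Fintype W) (_ : DecidableEq W) (s : ℕ),
      Fintype.card W = 2 * Fintype.card σ ^ 3 + 3 * (Fintype.card σ ^ 2 * Fintype.card Pr) ∧
      ∀ k : ℕ, cost ((1 : Matrix W W ℂ) ⊗ₖ CT (Fin k × (H × H × H))) ≤
      ncost (Fintype.card σ) (Fintype.card Pr) g * gam (Fin k) (H × H × H) +
        s * 2 ^ (k * Fintype.card (H × H × H)) := by
  let W := ((σ × σ × σ) ⊕ (σ × σ × σ)) ⊕ (((σ × σ) × Pr) ⊕ ((σ × σ) × Pr) ⊕ ((σ × σ) × Pr))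
  let _ : DecidableEq W := Classical.decEq W
  let inL : W → Lab (H × H × H) := Sum.elim (Sum.elim D.P3 fun _ => 0) fun _ => 0
  let e : W → W → ℂ := fun w => Pi.single w 1
  have h := D.swap (range fun w => (inL w, e w)) (fun t => e (Sum.inl (Sum.inl t)))
    (fun t => e (Sum.inl (Sum.inr t))) (fun p => e (Sum.inr (Sum.inl p)))
    (fun p => e (Sum.inr (Sum.inr (Sum.inl p)))) (fun p => e (Sum.inr (Sum.inr (Sum.inr p))))
    (fun t => Has.of_mem ⟨Sum.inl (Sum.inl t), rfl⟩)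
    (fun t => Has.of_mem ⟨Sum.inl (Sum.inr t), rfl⟩)
    (fun t => Has.of_mem ⟨Sum.inr (Sum.inl t), rfl⟩)
    (fun t => Has.of_mem ⟨Sum.inr (Sum.inr (Sum.inl t)), rfl⟩)
    (fun t => Has.of_mem ⟨Sum.inr (Sum.inr (Sum.inr t)), rfl⟩)
  obtain ⟨s, hs⟩ := Net.cost_le inL (by
    rintro ((t | t) | p)
    · exact ((D.hP _).k3 (D.hP _) (D.hP _)).isSymm
    · exact Matrix.isSymm_zero
    · exact Matrix.isSymm_zero) h (by
    rintro ((t | t) | p | p | p)
    · exact Or.inl (Or.inl (Or.inl (Or.inl ⟨t, rfl⟩)))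
    · exact Or.inl (Or.inl (Or.inl (Or.inr ⟨t, rfl⟩)))
    · exact Or.inl (Or.inl (Or.inr ⟨p, rfl⟩))
    · exact Or.inl (Or.inr ⟨p, rfl⟩)
    · exact Or.inr ⟨p, rfl⟩)
  refine ⟨W, inferInstance, inferInstance, s, ?_, hs⟩
  simp only [W, Fintype.card_sum, Fintype.card_prod]
  ring

lemma gc_rec {ι W : Type} [Fintype ι] [DecidableEq ι] [Fintype W] [DecidableEq W] {r s a q : ℕ}
    (hW : Fintype.card W + q = 2 ^ a)
    (h : ∀ k : ℕ, cost ((1 : Matrix W W ℂ) ⊗ₖ CT (Fin k × ι)) ≤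
      r * gam (Fin k) ι + s * 2 ^ (k * Fintype.card ι)) (ρ k : ℕ) :
    gc (a + ρ + k * Fintype.card ι) ≤
      2 ^ ρ * ((r + q * Fintype.card ι) * (2 ^ (k * (Fintype.card ι - 1)) * gc k) +
        s * 2 ^ (k * Fintype.card ι)) + 2 ^ (k * Fintype.card ι) * gc (a + ρ) := by
  have e : a + ρ + k * Fintype.card ι = Fintype.card (Fin (a + ρ) ⊕ (Fin k × ι)) := by simp
  rw [e, ← cost_CT]
  refine (cost_CT_sum _ _).trans ((cost_kron _ _).trans ?_)
  have h1 := cost_par_le (W := W) (γ := Fin (a + ρ) → ZMod 2) (CT (Fin k × ι)) (2 ^ ρ) q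
    (by rw [hW]; simp [pow_add, mul_comm])
  have h2 : cost (CT (Fin k × ι)) ≤ Fintype.card ι * gam (Fin k) ι := by
    rw [← mult_phiB_one]
    exact cost_mult_phiB Len.one _ Matrix.isSymm_one
      (Matrix.map_one _ Int.cast_zero Int.cast_one)
  have h3 := h k
  have h4 : gam (Fin k) ι = 2 ^ (k * (Fintype.card ι - 1)) * gc k := by simp [gam]
  rw [← h4]
  have h5 : Fintype.card (Fin k × ι → ZMod 2) = 2 ^ (k * Fintype.card ι) := by simp
  rw [h5]
  refine Nat.add_le_add (h1.trans (Nat.mul_le_mul_left _ ?_)) le_rfl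
  calc _ ≤ r * gam (Fin k) ι + s * 2 ^ (k * Fintype.card ι) +
        q * (Fintype.card ι * gam (Fin k) ι) := by gcongr
    _ = _ := by ring

lemma solve_rec (f : ℕ → ℕ) (m a Λ s : ℕ) (θ : ℝ) (hm : 1 ≤ m) (hθ : 0 ≤ θ)
    (hΛ : (Λ : ℝ) < 2 ^ a * (m : ℝ) ^ θ)
    (h : ∀ ρ k, f (a + ρ + k * m) ≤ 2 ^ ρ * (Λ * (2 ^ (k * (m - 1)) * f k) +
        s * 2 ^ (k * m)) + 2 ^ (k * m) * f (a + ρ)) :
    ∃ C : ℝ, 0 ≤ C ∧ ∀ K, (f K : ℝ) ≤ C * 2 ^ K * ((K : ℝ) + 1) ^ θ := by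
  set c : ℕ := ∑ j ∈ Finset.range (a + 2 * m), f j with hc
  have hcj : ∀ j, j < a + 2 * m → f j ≤ c := fun j hj =>
    Finset.single_le_sum (f := f) (fun _ _ => Nat.zero_le _) (Finset.mem_range.2 hj)
  set μ : ℝ := 2 ^ a * (m : ℝ) ^ θ - Λ with hμ
  have hμ0 : 0 < μ := by linarith
  set C : ℝ := c + (s + c) / μ with hC
  have hC0 : 0 ≤ C := by positivity
  have hCc : (c : ℝ) ≤ C := by
    have : 0 ≤ ((s : ℝ) + c) / μ := by positivity
    linarith
  have hCμ : (s : ℝ) + c ≤ C * μ := by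
    rw [hC, add_mul, div_mul_cancel₀ _ hμ0.ne']
    have : 0 ≤ (c : ℝ) * μ := by positivity
    linarith
  refine ⟨C, hC0, fun K => ?_⟩
  induction K using Nat.strong_induction_on with
  | _ K ih =>
  by_cases hK : K < a + m
  · have h1 : (f K : ℝ) ≤ c := by exact_mod_cast hcj K (by omega)
    have h2 : (1 : ℝ) ≤ 2 ^ K := one_le_pow₀ (by norm_num)
    have h3 : (1 : ℝ) ≤ ((K : ℝ) + 1) ^ θ :=
      Real.one_le_rpow (by linarith [Nat.cast_nonneg (α := ℝ) K]) hθ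
    calc (f K : ℝ) ≤ C * 1 * 1 := by linarith
      _ ≤ _ := by gcongr
  obtain ⟨k, ρ, hρ1, hρ2, rfl⟩ : ∃ k ρ, m ≤ ρ ∧ ρ < 2 * m ∧ K = a + ρ + k * m := by
    refine ⟨(K - a - m) / m, m + (K - a - m) % m, by omega, ?_, ?_⟩
    · have := Nat.mod_lt (K - a - m) hm
      omega
    · have := Nat.div_add_mod' (K - a - m) m
      omega
  have hk : k < a + ρ + k * m := by nlinarith
  have ihk := ih k hk
  have h1 : (f (a + ρ + k * m) : ℝ) ≤ 2 ^ ρ * (Λ * (2 ^ (k * (m - 1)) * f k) +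
        s * 2 ^ (k * m)) + 2 ^ (k * m) * f (a + ρ) := by exact_mod_cast h ρ k
  have h2 : (f (a + ρ) : ℝ) ≤ c := by exact_mod_cast hcj _ (by omega)
  have h3 : (2 : ℝ) ^ (k * (m - 1)) * 2 ^ k = 2 ^ (k * m) := by
    rw [← pow_add]
    congr 1
    obtain ⟨m', rfl⟩ : ∃ m', m = m' + 1 := ⟨m - 1, by omega⟩
    simp [mul_add]
  have h4 : (m : ℝ) ^ θ * ((k : ℝ) + 1) ^ θ ≤ (((a + ρ + k * m : ℕ) : ℝ) + 1) ^ θ := by
    rw [← Real.mul_rpow (by positivity) (by positivity)]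
    refine Real.rpow_le_rpow (by positivity) ?_ hθ
    have : (m : ℝ) ≤ ρ := by exact_mod_cast hρ1
    push_cast
    nlinarith [Nat.cast_nonneg (α := ℝ) a]
  have h5 : (1 : ℝ) ≤ ((k : ℝ) + 1) ^ θ :=
    Real.one_le_rpow (by linarith [Nat.cast_nonneg (α := ℝ) k]) hθ
  have h6 : (1 : ℝ) ≤ 2 ^ ρ := one_le_pow₀ (by norm_num)
  set z : ℝ := ((k : ℝ) + 1) ^ θ
  calc (f (a + ρ + k * m) : ℝ) ≤ 2 ^ ρ * (Λ * (2 ^ (k * (m - 1)) * (C * 2 ^ k * z)) +
        s * 2 ^ (k * m)) + 2 ^ (k * m) * (2 ^ ρ * c) := by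
        refine h1.trans ?_
        gcongr
        nlinarith [Nat.cast_nonneg (α := ℝ) c]
    _ = 2 ^ ρ * 2 ^ (k * m) * (Λ * C * z + (s + c)) := by rw [← h3]; ring
    _ ≤ 2 ^ ρ * 2 ^ (k * m) * (Λ * C * z + C * μ * z) := by
        gcongr
        nlinarith [mul_nonneg hC0 hμ0.le]
    _ = C * 2 ^ (a + ρ + k * m) * ((m : ℝ) ^ θ * z) := by rw [hμ]; ring
    _ ≤ _ := by gcongr

open Crest.FourierCircuit in
lemma savingExponent_nonneg : 0 ≤ savingExponent :=
  Real.logb_nonneg (by norm_num) (by norm_num)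

open Crest.FourierCircuit in
lemma savingExponent_le_one : savingExponent ≤ 1 := by
  have := Real.logb_le_logb_of_le (b := 10 ^ 6) (by norm_num)
    (x := 10 ^ 6 - 6871402692000000 / 2 ^ 71) (y := 10 ^ 6) (by norm_num) (by norm_num)
  rwa [Real.logb_self_eq_one (by norm_num)] at this

open Crest.FourierCircuit in
lemma le_rpow_savingExponent {x : ℝ} (hx : 0 < x) (hx' : x ≤ 10 ^ 6) :
    x * ((10 ^ 6 - 6871402692000000 / 2 ^ 71) / 10 ^ 6) ≤ x ^ savingExponent := by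
  have h1 : ((10 : ℝ) ^ 6) ^ savingExponent = 10 ^ 6 - 6871402692000000 / 2 ^ 71 :=
    Real.rpow_logb (by norm_num) (by norm_num) (by norm_num)
  have h2 : ((10 : ℝ) ^ 6) ^ (savingExponent - 1) ≤ x ^ (savingExponent - 1) :=
    Real.rpow_le_rpow_of_nonpos hx hx' (by linarith [savingExponent_le_one])
  rw [Real.rpow_sub_one (by norm_num), h1, Real.rpow_sub_one hx.ne', le_div_iff₀ hx] at h2
  linarith

open Crest.FourierCircuit in
theorem gc_bound : ∃ C : ℝ, 0 ≤ C ∧ ∀ K, (gc K : ℝ) ≤ C * 2 ^ K * ((K : ℝ) + 1) ^ savingExponent := by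
  have key : ∀ b : ℕ, b = 16 →
      ∃ C : ℝ, 0 ≤ C ∧ ∀ K, (gc K : ℝ) ≤ C * 2 ^ K * ((K : ℝ) + 1) ^ savingExponent := by
    intro b hb
    obtain ⟨W, _, _, s, hW, h⟩ := (design (b := b) 46 (by omega) (by omega)).cost_wires
    have hv : Fintype.card (Fin 3 → Fin b) = 4096 := by simp [hb]
    have hn : Fintype.card (OP b) ≤ 4096 * 4096 := by
      have := Fintype.card_subtype_le (fun p : (Fin 3 → Fin b) × (Fin 3 → Fin b) =>
        tv p.1 ⬝ᵥ tv p.2 = 0)
      rwa [Fintype.card_prod, hv] at this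
    have hm : Fintype.card ((Fin 3 × Fin b) × (Fin 3 × Fin b) × (Fin 3 × Fin b)) = 110592 := by
      simp [hb]
    generalize Fintype.card (OP b) = n at *
    rw [hv] at hW h
    obtain ⟨q, hq⟩ : ∃ q, Fintype.card W + q = 2 ^ 50 := ⟨2 ^ 50 - Fintype.card W, by omega⟩
    have hrec := gc_rec hq h
    rw [hm] at hrec
    refine solve_rec gc 110592 50 _ s _ (by norm_num) savingExponent_nonneg ?_ hrec
    have h1 := ncost_eq 4096 n 46
    have h2 : ncost 4096 n 46 + q * 110592 = 124515522476064636928 := by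
      generalize ncost 4096 n 46 = r at h1
      generalize Fintype.card W = w at hW hq
      norm_num at h1 hW hq ⊢
      omega
    rw [h2]
    have h3 := le_rpow_savingExponent (x := 110592) (by norm_num) (by norm_num)
    push_cast
    norm_num at h3 ⊢
    linarith
  exact key 16 rfl

end Crest.Agent.R324
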