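import Crest.Agent.R324.Gadget

/-! The three-stage swap network. -/

namespace Crest.Agent.R324

open Set
open scoped Kronecker

variable {σ H Pr : Type} [Fintype σ] [DecidableEq σ] [Fintype H] [DecidableEq H] [Fintype Pr]
  {g : ℕ} (D : Design σ H Pr g)
variable {U : Type} [AddCommGroup U] [Module ℂ U]

/-- Triple Kronecker product of labels. -/
def K3 (A B C : Lab H) : Lab (H × H × H) := A ⊗ₖ (B ⊗ₖ C)

omit [Fintype H] [DecidableEq H] in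
lemma K3_apply (A B C : Lab H) (a b : H × H × H) :
    K3 A B C a b = A a.1 b.1 * (B a.2.1 b.2.1 * C a.2.2 b.2.2) := rfl

omit [Fintype H] [DecidableEq H] in
lemma Len.k3 {A B C : Lab H} {r s t : ℕ} (hA : Len A r) (hB : Len B s) (hC : Len C t) :
    Len (K3 A B C) (r * (s * t)) := hA.kron (hB.kron hC)

omit [Fintype H] in
lemma K3_one : K3 (1 : Lab H) 1 1 = 1 := by
  simp [K3]

/-- First slot. -/
def K3a (B C : Lab H) : Lab H →+ Lab (H × H × H) :=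
  AddMonoidHom.mk' (fun M => K3 M B C) fun M N => by
    ext a b; simp only [K3_apply, Matrix.add_apply]; ring

/-- Second slot. -/
def K3b (A C : Lab H) : Lab H →+ Lab (H × H × H) :=
  AddMonoidHom.mk' (fun M => K3 A M C) fun M N => by
    ext a b; simp only [K3_apply, Matrix.add_apply]; ring

/-- Third slot. -/
def K3c (A B : Lab H) : Lab H →+ Lab (H × H × H) :=
  AddMonoidHom.mk' (fun M => K3 A B M) fun M N => by
    ext a b; simp only [K3_apply, Matrix.add_apply]; ring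

/-- Closes identities between sums of triple Kronecker products. -/
macro "k3" : tactic =>
  `(tactic| (ext a b; simp only [K3a, K3b, K3c, AddMonoidHom.mk'_apply, K3_apply,
    Matrix.add_apply, Matrix.sub_apply, Matrix.zero_apply]; ring))

/-- Total number of rank-one operations of the network. -/
def ncost (v n g : ℕ) : ℕ :=
  3 * (v * v * ((g + 2) * (g + 2) + 2 * v * (g + 1) + n * (g + 2))) +
    2 * (v * v * v * ((g + 1) * (g + 1))) +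
    2 * (v * v * v * ((g + 1) * ((g + 2) * (g + 1)) + (g + 1) * (g + 1))) +
    v * v * n * ((g + 2) * ((g + 1) * (g + 2)) + (g + 2) * (g + 1) + (g + 1) * (g + 2) +
      (g + 2) * ((g + 2) * (g + 1)) + ((g + 1) * ((g + 2) * (g + 2)) + (g + 1) * (g + 2)))

lemma ncost_eq (v n g : ℕ) : ncost v n g + 2 * v ^ 3 =
    (2 * v ^ 3 + 3 * (v ^ 2 * n)) * (g + 2) ^ 3 + 3 * v ^ 2 * (g + 2) ^ 2 := by
  unfold ncost; ring

/-- The label `t tᵀ` of a triple. -/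
def Design.P3 (t : σ × σ × σ) : Lab (H × H × H) := K3 (D.P t.1) (D.P t.2.1) (D.P t.2.2)

section Cont

variable {ι : Type} [Fintype ι] [DecidableEq ι]

lemma Net.stepc {S T : Set (Lab ι × U)} {J : Type*} [Fintype J] (l l' : J → Lab ι) (a : J → U)
    (r : ℕ) {r' : ℕ} (ha : ∀ j, a j ∈ Has S (l j)) (hl : ∀ j, Len (l' j - l j) r)
    (h : ∀ S₁ : Set (Lab ι × U), (∀ l b, b ∈ Has S l → b ∈ Has S₁ l) →
      (∀ j, a j ∈ Has S₁ (l' j)) → Net S₁ r' T) : Net S (Fintype.card J * r + r') T :=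
  Net.step l l' a r ha hl (h _ (fun _ _ hb => Has.left hb) fun j => Has.new l' a j)

lemma Design.layer1 {Q : Type} [Fintype Q] (β : Q → Lab ι) (φ : Q → Lab H →+ Lab ι)
    (hφ : ∀ q M r, Len M r → Len (φ q M) r)
    (S₀ : Set (Lab ι × U)) (x y : Q → σ → U) (a : Q → Pr → U)
    (hx : ∀ q T, x q T ∈ Has S₀ (β q + φ q (D.P T))) (hy : ∀ q T, y q T ∈ Has S₀ (β q))
    (ha : ∀ q p, a q p ∈ Has S₀ (β q)) {W : Set (Lab ι × U)} {r' : ℕ}
    (h : ∀ S₁ : Set (Lab ι × U), (∀ l b, b ∈ Has S₀ l → b ∈ Has S₁ l) →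
      (∀ q T, x q T ∈ Has S₁ (β q + φ q 1)) →
      (∀ q T, y q T + x q T ∈ Has S₁ (β q + φ q (1 - D.P T))) →
      (∀ q p, a q p ∈ Has S₁ (β q + φ q 1)) → Net S₁ r' W) :
    Net S₀ (Fintype.card Q * gcost σ Pr g + r') W :=
  (Net.iUnion _ _ fun q : Q => D.gadget1 (β q) (φ q) (hφ q) S₀ (x q) (y q) (a q) (hx q) (hy q)
    (ha q)).keep.trans (h _ (fun _ _ hb => Has.left hb)
    (fun q T => Has.of_mem (Or.inr (mem_iUnion.2 ⟨q, Or.inl (Or.inl ⟨T, rfl⟩)⟩)))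
    (fun q T => Has.of_mem (Or.inr (mem_iUnion.2 ⟨q, Or.inl (Or.inr ⟨T, rfl⟩)⟩)))
    (fun q p => Has.of_mem (Or.inr (mem_iUnion.2 ⟨q, Or.inr ⟨p, rfl⟩⟩))))

lemma Design.layer2 {Q : Type} [Fintype Q] (β : Q → Lab ι) (φ : Q → Lab H →+ Lab ι)
    (hφ : ∀ q M r, Len M r → Len (φ q M) r)
    (S₀ : Set (Lab ι × U)) (x y : Q → σ → U) (a : Q → Pr → U)
    (hx : ∀ q T, x q T ∈ Has S₀ (β q + φ q (D.P T))) (hy : ∀ q T, y q T ∈ Has S₀ (β q))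
    (ha : ∀ q p, a q p ∈ Has S₀ (β q)) {W : Set (Lab ι × U)} {r' : ℕ}
    (h : ∀ S₁ : Set (Lab ι × U), (∀ l b, b ∈ Has S₀ l → b ∈ Has S₁ l) →
      (∀ q T, x q T - y q T ∈ Has S₁ (β q + φ q 1)) →
      (∀ q T, y q T ∈ Has S₁ (β q + φ q (1 - D.P T))) →
      (∀ q p, a q p ∈ Has S₁ (β q + φ q 1)) → Net S₁ r' W) :
    Net S₀ (Fintype.card Q * gcost σ Pr g + r') W :=
  (Net.iUnion _ _ fun q : Q => D.gadget2 (β q) (φ q) (hφ q) S₀ (x q) (y q) (a q) (hx q) (hy q)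
    (ha q)).keep.trans (h _ (fun _ _ hb => Has.left hb)
    (fun q T => Has.of_mem (Or.inr (mem_iUnion.2 ⟨q, Or.inl (Or.inl ⟨T, rfl⟩)⟩)))
    (fun q T => Has.of_mem (Or.inr (mem_iUnion.2 ⟨q, Or.inl (Or.inr ⟨T, rfl⟩)⟩)))
    (fun q p => Has.of_mem (Or.inr (mem_iUnion.2 ⟨q, Or.inr ⟨p, rfl⟩⟩))))

end Cont

theorem Design.swap (S₀ : Set (Lab (H × H × H) × U)) (x y : σ × σ × σ → U)
    (a₁ a₂ a₃ : (σ × σ) × Pr → U)
    (hx : ∀ t, x t ∈ Has S₀ (D.P3 t)) (hy : ∀ t, y t ∈ Has S₀ 0)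
    (h₁ : ∀ p, a₁ p ∈ Has S₀ 0) (h₂ : ∀ p, a₂ p ∈ Has S₀ 0) (h₃ : ∀ p, a₃ p ∈ Has S₀ 0) :
    Net S₀ (ncost (Fintype.card σ) (Fintype.card Pr) g)
      ((range fun t => (D.P3 t + 1, x t)) ∪ (range fun t => (0 + 1, y t)) ∪
        (range fun p => (0 + 1, a₁ p)) ∪ (range fun p => (0 + 1, a₂ p)) ∪
        (range fun p => (0 + 1, a₃ p))) := by
  have hP := D.hP
  have hQ := D.hQ
  have h1 := D.h1
  have fa : ∀ (q : σ × σ) M r, Len M r → Len (K3a (D.P q.1) (D.P q.2) M) r := fun q M r hM => by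
    have := hM.k3 (hP q.1) (hP q.2)
    rw [mul_one, mul_one] at this
    exact this
  have fb : ∀ (q : σ × σ) M r, Len M r → Len (K3b (D.P q.1) (D.P q.2) M) r := fun q M r hM => by
    have := (hP q.1).k3 hM (hP q.2)
    rw [mul_one, one_mul] at this
    exact this
  have fc : ∀ (q : σ × σ) M r, Len M r → Len (K3c (D.P q.1) (D.P q.2) M) r := fun q M r hM => by
    have := (hP q.1).k3 (hP q.2) hM
    rw [one_mul, one_mul] at this
    exact this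
  have e1 : ∀ A B : Lab H, (K3 1 1 1 - K3 A B 1) + K3c A B 1 = 0 + 1 := by
    intro A B
    rw [← K3_one]
    k3
  have e2 : ∀ t : σ × σ × σ, (K3 1 1 1 - K3 (D.P t.1) (D.P t.2.1) 1) +
      K3c (D.P t.1) (D.P t.2.1) (1 - D.P t.2.2) = D.P3 t + 1 := by
    intro t
    have h2 : ∀ z : ZMod 2, z + z = 0 := by decide
    rw [← K3_one (H := H)]
    ext a b
    simp only [K3c, AddMonoidHom.mk'_apply, K3_apply, Design.P3,
      Matrix.add_apply, Matrix.sub_apply]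
    linear_combination -(h2 (D.P t.1 a.1 b.1 * (D.P t.2.1 a.2.1 b.2.1 * D.P t.2.2 a.2.2 b.2.2)))
  have e3 : K3 (1 : Lab H) 1 1 = 0 + 1 := by rw [K3_one, zero_add]
  refine Net.mono_cost (r := Fintype.card (σ × σ) * gcost σ Pr g +
    (Fintype.card (σ × σ × σ) * ((g + 1) * ((g + 1) * 1)) +
    (Fintype.card (σ × σ × σ) * ((g + 1) * ((g + 1) * 1)) +
    (Fintype.card ((σ × σ) × Pr) * ((g + 2) * ((g + 1) * (g + 2)) + (g + 2) * (1 * (g + 1))) +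
    (Fintype.card ((σ × σ) × Pr) * ((g + 1) * ((g + 2) * 1)) +
    (Fintype.card (σ × σ) * gcost σ Pr g +
    (Fintype.card (σ × σ × σ) * ((g + 1) * ((g + 2) * (g + 1)) + 1 * ((g + 1) * (g + 1))) +
    (Fintype.card (σ × σ × σ) * ((g + 1) * ((g + 2) * (g + 1)) + 1 * ((g + 1) * (g + 1))) +
    (Fintype.card ((σ × σ) × Pr) * ((g + 2) * ((g + 2) * (g + 1))) +
    (Fintype.card ((σ × σ) × Pr) * ((g + 1) * ((g + 2) * (g + 2)) + 1 * ((g + 1) * (g + 2))) +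
    (Fintype.card (σ × σ) * gcost σ Pr g + 0))))))))))) ?_
    (le_of_eq (by simp only [Fintype.card_prod, gcost, ncost]; ring))
  -- stage 1
  refine D.layer1 (fun _ : σ × σ => 0) (fun q => K3a (D.P q.1) (D.P q.2)) fa S₀
    (fun q T => x (T, q.1, q.2)) (fun q T => y (T, q.1, q.2)) (fun q p => a₁ (q, p))
    (fun q T => by rw [zero_add]; exact hx (T, q.1, q.2)) (fun q T => hy _) (fun q p => h₁ _)
    fun S₁ i₁ kx ky k₁ => ?_
  -- transition to stage 2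
  refine Net.stepc (fun t : σ × σ × σ => 0 + K3a (D.P t.2.1) (D.P t.2.2) 1)
    (fun t : σ × σ × σ => K3 (1 - D.P t.1) 1 (D.P t.2.2) +
    K3b (D.P t.1) (D.P t.2.2) (D.P t.2.1)) x _ (fun t => kx t.2 t.1)
    (fun t => ((hQ t.1).k3 (hQ t.2.1) (hP t.2.2)).of_eq (by k3)) fun S₂ i₂ lx => ?_
  refine Net.stepc (fun t : σ × σ × σ => 0 + K3a (D.P t.2.1) (D.P t.2.2) (1 - D.P t.1))
    (fun t : σ × σ × σ => K3 (1 - D.P t.1) 1 (D.P t.2.2))
    (fun t => y t + x t) _ (fun t => i₂ _ _ (ky t.2 t.1))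
    (fun t => ((hQ t.1).k3 (hQ t.2.1) (hP t.2.2)).of_eq (by k3)) fun S₃ i₃ ly => ?_
  refine Net.stepc (fun p : (σ × σ) × Pr => 0 + K3a (D.P p.1.1) (D.P p.1.2) 1)
    (fun _ => K3 1 1 1) a₁ _ (fun p => i₃ _ _ (i₂ _ _ (k₁ p.1 p.2)))
    (fun p => ((h1.k3 (hQ p.1.1) h1).add (h1.k3 (hP p.1.1) (hQ p.1.2))).of_eq (by k3))
    fun S₄ i₄ l₁ => ?_
  refine Net.stepc (fun _ : (σ × σ) × Pr => 0)
    (fun p : (σ × σ) × Pr => K3 (1 - D.P p.1.1) 1 (D.P p.1.2)) a₂ _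
    (fun p => i₄ _ _ (i₃ _ _ (i₂ _ _ (i₁ _ _ (h₂ p)))))
    (fun p => ((hQ p.1.1).k3 h1 (hP p.1.2)).of_eq (by k3)) fun S₅ i₅ l₂ => ?_
  -- stage 2
  refine D.layer2 (fun q : σ × σ => K3 (1 - D.P q.1) 1 (D.P q.2))
    (fun q => K3b (D.P q.1) (D.P q.2)) fb S₅ (fun q T => x (q.1, T, q.2))
    (fun q T => y (q.1, T, q.2) + x (q.1, T, q.2)) (fun q p => a₂ (q, p))
    (fun q T => i₅ _ _ (i₄ _ _ (i₃ _ _ (lx (q.1, T, q.2)))))
    (fun q T => i₅ _ _ (i₄ _ _ (ly (q.1, T, q.2)))) (fun q p => l₂ (q, p))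
    fun S₆ i₆ mx my m₂ => ?_
  -- transition to stage 3
  refine Net.stepc (fun t : σ × σ × σ => K3 (1 - D.P t.1) 1 (D.P t.2.2) +
      K3b (D.P t.1) (D.P t.2.2) 1)
    (fun t : σ × σ × σ => (K3 1 1 1 - K3 (D.P t.1) (D.P t.2.1) 1) +
    K3c (D.P t.1) (D.P t.2.1) (D.P t.2.2)) (fun t => x t - (y t + x t)) _
    (fun t => mx (t.1, t.2.2) t.2.1)
    (fun t => (((hQ t.1).k3 h1 (hQ t.2.2)).add
      ((hP t.1).k3 (hQ t.2.1) (hQ t.2.2))).of_eq (by k3)) fun S₇ i₇ nx => ?_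
  refine Net.stepc (fun t : σ × σ × σ => K3 (1 - D.P t.1) 1 (D.P t.2.2) +
      K3b (D.P t.1) (D.P t.2.2) (1 - D.P t.2.1))
    (fun t : σ × σ × σ => K3 1 1 1 - K3 (D.P t.1) (D.P t.2.1) 1)
    (fun t => y t + x t) _ (fun t => i₇ _ _ (my (t.1, t.2.2) t.2.1))
    (fun t => (((hQ t.1).k3 h1 (hQ t.2.2)).add
      ((hP t.1).k3 (hQ t.2.1) (hQ t.2.2))).of_eq (by k3)) fun S₈ i₈ ny => ?_
  refine Net.stepc (fun p : (σ × σ) × Pr => K3 (1 - D.P p.1.1) 1 (D.P p.1.2) +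
      K3b (D.P p.1.1) (D.P p.1.2) 1)
    (fun _ => K3 1 1 1) a₂ _ (fun p => i₈ _ _ (i₇ _ _ (m₂ p.1 p.2)))
    (fun p => (h1.k3 h1 (hQ p.1.2)).of_eq (by k3)) fun S₉ i₉ n₂ => ?_
  refine Net.stepc (fun _ : (σ × σ) × Pr => 0)
    (fun p : (σ × σ) × Pr => K3 1 1 1 - K3 (D.P p.1.1) (D.P p.1.2) 1) a₃ _
    (fun p => i₉ _ _ (i₈ _ _ (i₇ _ _ (i₆ _ _ (i₅ _ _ (i₄ _ _ (i₃ _ _ (i₂ _ _ (i₁ _ _
      (h₃ p))))))))))
    (fun p => (((hQ p.1.1).k3 h1 h1).add ((hP p.1.1).k3 (hQ p.1.2) h1)).of_eq (by k3))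
    fun T₀ j₀ n₃ => ?_
  -- stage 3
  refine D.layer1 (fun q : σ × σ => K3 1 1 1 - K3 (D.P q.1) (D.P q.2) 1)
    (fun q => K3c (D.P q.1) (D.P q.2)) fc T₀
    (fun q T => x (q.1, q.2, T) - (y (q.1, q.2, T) + x (q.1, q.2, T)))
    (fun q T => y (q.1, q.2, T) + x (q.1, q.2, T)) (fun q p => a₃ (q, p))
    (fun q T => j₀ _ _ (i₉ _ _ (i₈ _ _ (nx (q.1, q.2, T)))))
    (fun q T => j₀ _ _ (i₉ _ _ (ny (q.1, q.2, T)))) (fun q p => n₃ (q, p))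
    fun T₁ j₁ ox oy o₃ => ?_
  have px : ∀ t, x t ∈ Has T₁ (D.P3 t + 1) := by
    intro t
    have := oy (t.1, t.2.1) t.2.2
    rw [e2 t] at this
    simpa using this
  have py : ∀ t, y t ∈ Has T₁ (0 + 1) := by
    intro t
    have := Submodule.neg_mem _ (ox (t.1, t.2.1) t.2.2)
    rw [e1] at this
    have e : -(x (t.1, t.2.1, t.2.2) - (y (t.1, t.2.1, t.2.2) + x (t.1, t.2.1, t.2.2))) = y t := by
      abel
    exact e ▸ this
  have p₁ : ∀ p, a₁ p ∈ Has T₁ (0 + 1) := fun p =>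
    e3 ▸ j₁ _ _ (j₀ _ _ (i₉ _ _ (i₈ _ _ (i₇ _ _ (i₆ _ _ (i₅ _ _ (l₁ p)))))))
  have p₂ : ∀ p, a₂ p ∈ Has T₁ (0 + 1) := fun p => e3 ▸ j₁ _ _ (j₀ _ _ (n₂ p))
  have p₃ : ∀ p, a₃ p ∈ Has T₁ (0 + 1) := fun p => by
    have := o₃ p.1 p.2
    rwa [e1] at this
  refine Net.form (fun t => D.P3 t + 1) x px ?_
  refine Net.form (fun _ => 0 + 1) y (fun t => Has.left (py t)) ?_
  refine Net.form (fun _ => 0 + 1) a₁ (fun p => Has.left (Has.left (p₁ p))) ?_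
  refine Net.form (fun _ => 0 + 1) a₂ (fun p => Has.left (Has.left (Has.left (p₂ p)))) ?_
  refine Net.form (fun _ => 0 + 1) a₃
    (fun p => Has.left (Has.left (Has.left (Has.left (p₃ p))))) ?_
  refine Net.done ?_
  rintro _ ((((h | h) | h) | h) | h)
  · exact Or.inl (Or.inl (Or.inl (Or.inl (Or.inr h))))
  · exact Or.inl (Or.inl (Or.inl (Or.inr h)))
  · exact Or.inl (Or.inl (Or.inr h))
  · exact Or.inl (Or.inr h)
  · exact Or.inr h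

end Crest.Agent.R324
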