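import Crest.Agent.R324.Comp

/-! Kronecker products, tensor powers and their costs. -/

namespace Crest.Agent.R324

open Set
open scoped Kronecker

section Kron

variable {α β γ : Type*} {V : Type*} [AddCommGroup V] [Module ℂ V]

lemma app_one_kron [Fintype α] [Fintype γ] [DecidableEq γ] (A : Matrix β α ℂ) (x : γ × α → V)
    (c : γ) (b : β) :
    app ((1 : Matrix γ γ ℂ) ⊗ₖ A) x (c, b) = app A (fun a => x (c, a)) b := by
  simp only [app, Fintype.sum_prod_type, Matrix.kroneckerMap_apply, Matrix.one_apply, ite_mul,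
    one_mul, zero_mul, ite_smul, zero_smul]
  rw [Finset.sum_comm]
  simp

lemma app_kron_one [Fintype α] [Fintype γ] [DecidableEq γ] (A : Matrix β α ℂ) (x : α × γ → V)
    (c : γ) (b : β) :
    app (A ⊗ₖ (1 : Matrix γ γ ℂ)) x (b, c) = app A (fun a => x (a, c)) b := by
  simp [app, Fintype.sum_prod_type, Matrix.kroneckerMap_apply, Matrix.one_apply]

lemma cost_one_kron [Fintype α] [DecidableEq α] [Fintype β] [Fintype γ] [DecidableEq γ]
    (A : Matrix β α ℂ) : cost ((1 : Matrix γ γ ℂ) ⊗ₖ A) ≤ Fintype.card γ * cost A := by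
  apply cost_le
  set x : γ × α → (γ × α → ℂ) := fun a => Pi.single a 1
  have h := Comp.iUnion (S := range x) (fun c : γ => range (app A fun a => x (c, a)))
    (fun _ => cost A) fun c => (cost_comp A _).mono_left' (by rintro _ ⟨a, rfl⟩; exact ⟨_, rfl⟩)
  simp only [Finset.sum_const, Finset.card_univ, smul_eq_mul] at h
  refine h.mono_right' ?_
  rintro _ ⟨⟨c, b⟩, rfl⟩
  exact mem_iUnion.2 ⟨c, b, (app_one_kron A x c b).symm⟩

lemma cost_kron_one [Fintype α] [DecidableEq α] [Fintype β] [Fintype γ] [DecidableEq γ]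
    (A : Matrix β α ℂ) : cost (A ⊗ₖ (1 : Matrix γ γ ℂ)) ≤ Fintype.card γ * cost A := by
  apply cost_le
  set x : α × γ → (α × γ → ℂ) := fun a => Pi.single a 1
  have h := Comp.iUnion (S := range x) (fun c : γ => range (app A fun a => x (a, c)))
    (fun _ => cost A) fun c => (cost_comp A _).mono_left' (by rintro _ ⟨a, rfl⟩; exact ⟨_, rfl⟩)
  simp only [Finset.sum_const, Finset.card_univ, smul_eq_mul] at h
  refine h.mono_right' ?_
  rintro _ ⟨⟨b, c⟩, rfl⟩
  exact mem_iUnion.2 ⟨c, b, (app_kron_one A x c b).symm⟩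

lemma cost_kron [Fintype α] [DecidableEq α] [Fintype γ] [DecidableEq γ]
    (A : Matrix γ γ ℂ) (B : Matrix α α ℂ) :
    cost (A ⊗ₖ B) ≤ cost ((1 : Matrix γ γ ℂ) ⊗ₖ B) + Fintype.card α * cost A := by
  have : A ⊗ₖ B = (A ⊗ₖ (1 : Matrix α α ℂ)) * ((1 : Matrix γ γ ℂ) ⊗ₖ B) := by
    rw [← Matrix.mul_kronecker_mul]; simp
  rw [this]
  exact (cost_mul _ _).trans (Nat.add_le_add_left (cost_kron_one A) _)

/-- Splitting parallel copies in `p` groups, each made of a block `W` and `q` single copies. -/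
lemma cost_par_le {W : Type*} [Fintype W] [DecidableEq W] [Fintype α] [DecidableEq α]
    [Fintype β] [Fintype γ] [DecidableEq γ] (A : Matrix β α ℂ) (p q : ℕ)
    (hc : Fintype.card γ = p * (Fintype.card W + q)) :
    cost ((1 : Matrix γ γ ℂ) ⊗ₖ A) ≤ p * (cost ((1 : Matrix W W ℂ) ⊗ₖ A) + q * cost A) := by
  obtain ⟨e⟩ : Nonempty (Fin p × (W ⊕ Fin q) ≃ γ) :=
    ⟨Fintype.equivOfCardEq (by simp [hc])⟩
  apply cost_le
  set x : γ × α → (γ × α → ℂ) := fun a => Pi.single a 1
  have h := Comp.iUnion (S := range x)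
    (fun i : Fin p => range (app ((1 : Matrix W W ℂ) ⊗ₖ A)
      fun wa : W × α => x (e (i, Sum.inl wa.1), wa.2)) ∪
      ⋃ j : Fin q, range (app A fun a => x (e (i, Sum.inr j), a)))
    (fun _ => cost ((1 : Matrix W W ℂ) ⊗ₖ A) + q * cost A) fun i => by
      refine Comp.union ((cost_comp _ _).mono_left' (by rintro _ ⟨a, rfl⟩; exact ⟨_, rfl⟩)) ?_
      have := Comp.iUnion (S := range x)
        (fun j : Fin q => range (app A fun a => x (e (i, Sum.inr j), a))) (fun _ => cost A)
        fun j => (cost_comp A _).mono_left' (by rintro _ ⟨a, rfl⟩; exact ⟨_, rfl⟩)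
      simpa using this
  simp only [Finset.sum_const, Finset.card_univ, smul_eq_mul, Fintype.card_fin] at h
  refine h.mono_right' ?_
  rintro _ ⟨⟨c, b⟩, rfl⟩
  obtain ⟨⟨i, w | j⟩, rfl⟩ := e.surjective c
  · refine mem_iUnion.2 ⟨i, Or.inl ⟨(w, b), ?_⟩⟩
    rw [app_one_kron, app_one_kron]
  · refine mem_iUnion.2 ⟨i, Or.inr (mem_iUnion.2 ⟨j, b, ?_⟩)⟩
    rw [app_one_kron]

end Kron

section Tens

variable {κ : Type*} [Fintype κ] [DecidableEq κ] {ι : κ → Type*}

/-- Tensor product of a finite family of square matrices. -/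
def tens (A : ∀ i, Matrix (ι i) (ι i) ℂ) : Matrix (∀ i, ι i) (∀ i, ι i) ℂ :=
  Matrix.of fun x y => ∏ i, A i (x i) (y i)

omit [DecidableEq κ] in
lemma tens_apply (A : ∀ i, Matrix (ι i) (ι i) ℂ) (x y : ∀ i, ι i) :
    tens A x y = ∏ i, A i (x i) (y i) := rfl

lemma tens_mul [∀ i, Fintype (ι i)] (A B : ∀ i, Matrix (ι i) (ι i) ℂ) :
    tens (fun i => A i * B i) = tens A * tens B := by
  ext x z
  simp only [tens_apply, Matrix.mul_apply]
  rw [Finset.prod_univ_sum]
  simp only [Fintype.piFinset_univ, Finset.prod_mul_distrib]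

omit [DecidableEq κ] in
lemma tens_one [∀ i, DecidableEq (ι i)] [DecidableEq (∀ i, ι i)] :
    tens (fun i => (1 : Matrix (ι i) (ι i) ℂ)) = 1 := by
  ext x y
  simp only [tens_apply, Matrix.one_apply, Finset.prod_boole, Finset.mem_univ, forall_const,
    funext_iff]

end Tens

/-- Coefficients of the square root of the swap. -/
noncomputable def c0 (a : ZMod 2) : ℂ := if a = 0 then (1 + Complex.I) / 2 else (1 - Complex.I) / 2

/-- The square root of the swap matrix. -/
noncomputable def C2 : Matrix (ZMod 2) (ZMod 2) ℂ := Matrix.of fun a b => c0 (a + b)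

/-- Tensor power of `C2`. -/
noncomputable def CT (K : Type*) [Fintype K] : Matrix (K → ZMod 2) (K → ZMod 2) ℂ :=
  tens fun _ : K => C2

lemma CT_apply {K : Type*} [Fintype K] (x y : K → ZMod 2) :
    CT K x y = ∏ i, c0 (x i + y i) := rfl

/-- Cost of the `K`-th tensor power. -/
noncomputable def gc (K : ℕ) : ℕ := cost (CT (Fin K))

lemma cost_CT_le {K K' : Type*} [Fintype K] [DecidableEq K] [Fintype K'] [DecidableEq K']
    (e : K ≃ K') : cost (CT K) ≤ cost (CT K') := by
  have : CT K = (CT K').submatrix (fun x => x ∘ e.symm) (fun x => x ∘ e.symm) := by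
    ext x y
    simp only [CT_apply, Matrix.submatrix_apply, Function.comp]
    exact (e.symm.prod_comp fun i => c0 (x i + y i)).symm
  rw [this]
  refine cost_submatrix _ _ _ fun x y h => ?_
  funext i
  simpa using congrFun h (e i)

lemma cost_CT (K : Type*) [Fintype K] [DecidableEq K] : cost (CT K) = gc (Fintype.card K) :=
  le_antisymm (cost_CT_le (Fintype.equivFin K)) (cost_CT_le (Fintype.equivFin K).symm)

lemma cost_CT_sum (K K' : Type*) [Fintype K] [DecidableEq K] [Fintype K'] [DecidableEq K'] :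
    cost (CT (K ⊕ K')) ≤ cost (CT K ⊗ₖ CT K') := by
  have : CT (K ⊕ K') = (CT K ⊗ₖ CT K').submatrix (Equiv.sumArrowEquivProdArrow K K' (ZMod 2))
      (Equiv.sumArrowEquivProdArrow K K' (ZMod 2)) := by
    ext x y
    simp [CT_apply, Matrix.kroneckerMap_apply, Fintype.prod_sum_type]
  rw [this]
  exact cost_submatrix _ _ _ (Equiv.injective _)

end Crest.Agent.R324
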