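import Crest.Agent.R324.Layers
import Crest.Agent.R324.Recur
import Crest.Agent.R324.NFDft
import Crest.Agent.R324.Moduli

/-! Chirp reduction to a tensor product of small Fourier matrices. -/

namespace Crest.Agent.R324

open Set Complex Crest.FourierCircuit

lemma add_choose_two' (j k : ℕ) : (j + k).choose 2 = j.choose 2 + k.choose 2 + j * k := by
  induction k with
  | zero => simp
  | succ k ih =>
    rw [← add_assoc, Nat.choose_succ_succ' (j + k) 1, Nat.choose_succ_succ' k 1, ih]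
    simp only [Nat.choose_one_right]
    ring

lemma cost_dft_le {r : ℕ} (s : Fin r → ℕ) (hs : ∀ i, 0 < s i)
    (hco : Pairwise fun i j => Nat.Coprime (s i) (s j)) (ζ : Fin r → ℂ)
    (hζ : ∀ i, IsPrimitiveRoot (ζ i) (s i)) {n : ℕ} (hn : 2 * n ≤ ∏ i, s i) :
    cost (dftMatrix n) ≤ 2 * n + ∏ i, s i + 2 * cost (tens fun i => dft (s i) (ζ i)) := by
  classical
  obtain ⟨c, hc⟩ := dft_NF
  set F := tens fun i => dft (s i) (ζ i) with hF
  set ω : ℂ := Complex.exp (2 * Real.pi * Complex.I / n) with hω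
  have hω0 : ω ≠ 0 := Complex.exp_ne_zero _
  choose B _ hB _ using fun i => (hc (s i) (ζ i) (hζ i)).inv
  have hFB : F * tens B = 1 := by
    rw [hF, ← tens_mul]
    simp only [hB]
    exact tens_one
  let res : ℕ → ∀ i, Fin (s i) := fun x i => ⟨x % s i, Nat.mod_lt _ (hs i)⟩
  have hres : ∀ (x : ℕ) (l : ∀ i, Fin (s i)), F (res x) l = ∏ i, ζ i ^ (x * (l i).val) := by
    intro x l
    rw [hF, tens_apply]
    refine Finset.prod_congr rfl fun i _ => ?_
    simp only [dft, Matrix.of_apply, res]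
    rw [pow_mul, pow_mul, ← pow_eq_pow_mod _ (hζ i).pow_eq_one]
  have hsym : ∀ x l, F x l = F l x := by
    intro x l
    simp only [hF, tens_apply, dft, Matrix.of_apply, mul_comm]
  have hinj : ∀ x y, x < ∏ i, s i → y < ∏ i, s i → res x = res y → x = y := by
    intro x y hx hy h
    have h1 : ∀ i, x ≡ y [MOD s i] := fun i => congrArg Fin.val (congrFun h i)
    have h2 : ((∏ i, s i : ℕ) : ℤ) ∣ (y : ℤ) - x := by
      rw [Nat.cast_prod]
      exact Finset.prod_dvd_of_coprime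
        (fun i _ j _ hij => Nat.isCoprime_iff_coprime.2 (hco hij)) fun i _ => (h1 i).dvd
    exact Nat.ModEq.eq_of_lt_of_lt ((Nat.modEq_iff_dvd).2 h2) hx hy
  let b : (∀ i, Fin (s i)) → ℂ := fun z =>
    if h : ∃ x, x < ∏ i, s i ∧ res x = z then ω ^ h.choose.choose 2 else 0
  have hb : ∀ x, x < ∏ i, s i → b (res x) = ω ^ x.choose 2 := by
    intro x hx
    have h : ∃ y, y < ∏ i, s i ∧ res y = res x := ⟨x, hx, rfl⟩
    simp only [b, dif_pos h]
    rw [hinj _ _ h.choose_spec.1 hx h.choose_spec.2]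
  let d := (tens B).mulVec b
  have hd : F.mulVec d = b := by rw [Matrix.mulVec_mulVec, hFB, Matrix.one_mulVec]
  have hH : ∀ j k : ℕ, j + k < ∏ i, s i →
      (F * Matrix.diagonal d * F) (res j) (res k) = ω ^ (j + k).choose 2 := by
    intro j k hjk
    rw [← hb _ hjk, ← hd, Matrix.mul_apply, Matrix.mulVec, dotProduct]
    refine Finset.sum_congr rfl fun l _ => ?_
    rw [Matrix.mul_diagonal, hsym l, hres, hres, hres]
    simp only [add_mul, pow_add, Finset.prod_mul_distrib]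
    ring
  let D : Matrix (Fin n) (Fin n) ℂ := Matrix.diagonal fun j => (ω ^ j.val.choose 2)⁻¹
  have hmain : dftMatrix n = D * (F * Matrix.diagonal d * F).submatrix (fun j : Fin n => res j)
      (fun j : Fin n => res j) * D := by
    ext j k
    simp only [D, Matrix.mul_diagonal, Matrix.diagonal_mul, Matrix.submatrix_apply]
    rw [hH _ _ (by omega), add_choose_two', pow_add, pow_add]
    simp only [dftMatrix, Matrix.of_apply, ← hω]
    field_simp
  have hD : cost D ≤ n := by simpa using cost_diagonal fun j : Fin n => (ω ^ j.val.choose 2)⁻¹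
  have hd' : cost (Matrix.diagonal d) ≤ ∏ i, s i := by simpa using cost_diagonal d
  have h1 := cost_submatrix (F * Matrix.diagonal d * F) (fun j : Fin n => res j)
    (fun j : Fin n => res j) fun j k h => Fin.ext (hinj _ _ (by omega) (by omega) h)
  rw [hmain]
  set M := (F * Matrix.diagonal d * F).submatrix (fun j : Fin n => res j) (fun j : Fin n => res j)
  have h2 := cost_mul (D * M) D
  have h3 := cost_mul D M
  have h4 := cost_mul (F * Matrix.diagonal d) F
  have h5 := cost_mul F (Matrix.diagonal d)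
  omega

lemma cost_tens_dft {r : ℕ} (s : Fin r → ℕ) (ζ : Fin r → ℂ) {L : ℕ}
    (h : ∀ i, NF L (dft (s i) (ζ i))) :
    (cost (tens fun i => dft (s i) (ζ i)) : ℝ) ≤
      (∏ i, (s i + s i % 2) : ℕ) * ((L + 1) * (5 + 3 * (gc r / 2 ^ r))) := by
  let A : ∀ i, Matrix (Fin (s i) ⊕ Fin (s i % 2)) (Fin (s i) ⊕ Fin (s i % 2)) ℂ := fun i =>
    Matrix.fromBlocks (dft (s i) (ζ i)) 0 0 1
  have h1 := cost_tens_NF (ι := fun i => Fin (s i) ⊕ Fin (s i % 2)) (fun i => by
    simp only [Fintype.card_sum, Fintype.card_fin]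
    exact ⟨(s i + s i % 2) / 2, by omega⟩) L A fun i => (h i).fromBlocks (NF.one L)
  have h2 : (tens fun i => dft (s i) (ζ i)) = (tens A).submatrix (fun x i => Sum.inl (x i))
      (fun x i => Sum.inl (x i)) := by
    ext x y
    simp [tens_apply, A]
  have h3 := cost_submatrix (tens A) (fun (x : ∀ i, Fin (s i)) i => Sum.inl (x i))
    (fun (x : ∀ i, Fin (s i)) i => Sum.inl (x i)) fun x y hxy =>
      funext fun i => Sum.inl_injective (congrFun hxy i)
  rw [← h2] at h3
  simp only [Fintype.card_pi, Fintype.card_sum, Fintype.card_fin] at h1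
  exact le_trans (by exact_mod_cast h3) h1

lemma natLog_le {m : ℕ} {x : ℝ} (hm : (m : ℝ) ≤ x) (hx : 1 ≤ x) :
    (Nat.log 2 m : ℝ) ≤ 2 * Real.log x := by
  have hl : 0 ≤ Real.log x := Real.log_nonneg hx
  rcases Nat.eq_zero_or_pos m with rfl | h0
  · simpa using hl
  have h1 : ((2 : ℝ) ^ Nat.log 2 m) ≤ x := le_trans (by
    exact_mod_cast Nat.pow_log_le_self 2 h0.ne') hm
  have h2 := Real.log_le_log (by positivity) h1
  rw [Real.log_pow] at h2
  have h3 := Real.log_two_gt_d9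
  nlinarith [Nat.cast_nonneg (α := ℝ) (Nat.log 2 m)]

theorem cost_dft_bound : ∃ C : ℝ, ∃ N₀ : ℕ, ∀ n ≥ N₀, (cost (dftMatrix n) : ℝ) ≤
    C * n * Real.log n ^ savingExponent * Real.log (Real.log n) ^ (4 - savingExponent) := by
  obtain ⟨c, hc⟩ := exists_moduli
  obtain ⟨c₁, hc₁⟩ := dft_NF
  obtain ⟨C, hC0, hC⟩ := gc_bound
  refine ⟨2 + c + 2 * (c * ((c₁ * (18 * c + 7) ^ 2 + 1) * (5 + 3 * (C * (c + 3))))),
    ⌈Real.exp (Real.exp 1)⌉₊, fun n hn => ?_⟩
  have hn1 : Real.exp (Real.exp 1) ≤ n := Nat.ceil_le.1 hn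
  have hl : Real.exp 1 ≤ Real.log n := (Real.le_log_iff_exp_le (by
    linarith [Real.exp_pos (Real.exp 1)])).2 hn1
  have he : (1 : ℝ) ≤ Real.exp 1 := Real.one_le_exp (by norm_num)
  have hl1 : 1 ≤ Real.log n := he.trans hl
  have hll : 1 ≤ Real.log (Real.log n) := (Real.le_log_iff_exp_le (by linarith)).2 hl
  have hn2 : (1 : ℝ) ≤ n := (Real.one_le_exp (by linarith)).trans hn1
  obtain ⟨r, s, hs, hco, h2n, hprod, hr, hsz⟩ := hc n (by exact_mod_cast hn2)
  let ζ : Fin r → ℂ := fun i => Complex.exp (2 * Real.pi * Complex.I / s i)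
  have hζ : ∀ i, IsPrimitiveRoot (ζ i) (s i) := fun i =>
    Complex.isPrimitiveRoot_exp _ (hs i).ne'
  set L := c₁ * (Nat.log 2 (c * (Nat.log 2 n + 1) ^ 2) + 1) ^ 2 with hL
  have h1 := cost_dft_le s hs hco ζ hζ h2n
  have h2 := cost_tens_dft s ζ (L := L) fun i => (hc₁ _ _ (hζ i)).mono (by
    rw [hL]
    gcongr
    exact hsz i)
  have h3 : ∏ i, s i ≤ c * n :=
    le_trans (Finset.prod_le_prod' fun i _ => Nat.le_add_right _ _) hprod
  set l := Real.log n
  set ll := Real.log l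
  have θ0 := savingExponent_nonneg
  have θ1 := savingExponent_le_one
  set θ := savingExponent
  have hc0 : (0 : ℝ) ≤ c := Nat.cast_nonneg _
  have hlog : (Nat.log 2 n : ℝ) ≤ 2 * l := natLog_le le_rfl hn2
  have h4 : (gc r : ℝ) / 2 ^ r ≤ C * (c + 3) * l ^ θ := by
    rw [div_le_iff₀ (by positivity)]
    refine (hC r).trans ?_
    have e1 : (r : ℝ) + 1 ≤ (c + 3) * l := by
      have : (r : ℝ) ≤ Nat.log 2 n + c := by exact_mod_cast hr
      nlinarith
    have e2 : ((r : ℝ) + 1) ^ θ ≤ (c + 3) * l ^ θ := by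
      refine (Real.rpow_le_rpow (by positivity) e1 θ0).trans ?_
      rw [Real.mul_rpow (by positivity) (by positivity)]
      gcongr
      exact Real.rpow_le_self_of_one_le (by linarith) θ1
    calc C * 2 ^ r * ((r : ℝ) + 1) ^ θ ≤ C * 2 ^ r * ((c + 3) * l ^ θ) := by gcongr
      _ = _ := by ring
  have h5 : (L : ℝ) ≤ c₁ * (18 * c + 7) ^ 2 * ll ^ 2 := by
    have e1 : ((c * (Nat.log 2 n + 1) ^ 2 : ℕ) : ℝ) ≤ (9 * c + 1) * l ^ 2 := by
      push_cast
      have : ((Nat.log 2 n : ℝ) + 1) ^ 2 ≤ (3 * l) ^ 2 := by gcongr; linarith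
      nlinarith
    have e2 := natLog_le e1 (by nlinarith)
    rw [Real.log_mul (by positivity) (by positivity), Real.log_pow] at e2
    have e3 : Real.log (9 * c + 1) ≤ 9 * c := by
      have := Real.log_le_sub_one_of_pos (x := 9 * c + 1) (by positivity)
      linarith
    have e4 : (Nat.log 2 (c * (Nat.log 2 n + 1) ^ 2) : ℝ) + 1 ≤ (18 * c + 7) * ll := by
      push_cast at e2
      nlinarith
    rw [hL]
    push_cast
    rw [mul_assoc, ← mul_pow]
    gcongr
  have h6 : ll ^ 2 ≤ ll ^ (4 - θ) := by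
    rw [← Real.rpow_two]
    exact Real.rpow_le_rpow_of_exponent_le hll (by linarith)
  have h7 : 1 ≤ l ^ θ := Real.one_le_rpow hl1 θ0
  have h8 : 1 ≤ ll ^ (4 - θ) := Real.one_le_rpow hll (by linarith)
  set a := l ^ θ
  set b := ll ^ (4 - θ)
  have h9 : (L : ℝ) + 1 ≤ (c₁ * (18 * c + 7) ^ 2 + 1) * b := by
    have : (c₁ : ℝ) * (18 * c + 7) ^ 2 * ll ^ 2 ≤ c₁ * (18 * c + 7) ^ 2 * b := by gcongr
    linarith
  have h10 : 5 + 3 * ((gc r : ℝ) / 2 ^ r) ≤ (5 + 3 * (C * (c + 3))) * a := by linarith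
  have h11 : (cost (tens fun i => dft (s i) (ζ i)) : ℝ) ≤
      (c * n) * (((c₁ * (18 * c + 7) ^ 2 + 1) * b) * ((5 + 3 * (C * (c + 3))) * a)) := by
    refine h2.trans ?_
    gcongr
    exact_mod_cast hprod
  have h12 : (cost (dftMatrix n) : ℝ) ≤
      2 * n + c * n + 2 * cost (tens fun i => dft (s i) (ζ i)) := by
    have : cost (dftMatrix n) ≤ 2 * n + c * n + 2 * cost (tens fun i => dft (s i) (ζ i)) := by
      omega
    exact_mod_cast this
  have h13 : (2 + c) * (n : ℝ) ≤ (2 + c) * n * a * b := by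
    have : (1 : ℝ) ≤ a * b := one_le_mul_of_one_le_of_one_le h7 h8
    have h0 : (0 : ℝ) ≤ (2 + c) * n := by positivity
    nlinarith
  nlinarith

end Crest.Agent.R324
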